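import Vale.Agent.P011.H271.KSF

/-!
# The completion of a function field at a place is a nontrivially normed field
-/

open Filter
open scoped Topology

namespace Vale.Agent.P011.H565

open Vale.Agent.P011.H738 Vale.Agent.P011.H271

noncomputable section

variable {k : Type} [Field k]

/-- An element of the place with absolute value in `(0, 1)`. -/
theorem exists_uniformizer (v : Place k) : ∃ ϖ : k, ϖ ≠ 0 ∧ v.abv ϖ = (qq v : ℝ)⁻¹ := by
  obtain ⟨x, hx⟩ := v.normalized.2.1
  have hq : (1 : ℝ) < qq v := one_lt_qq' v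
  have hx0 : x ≠ 0 := by
    rintro rfl
    rw [map_zero] at hx
    change (0 : ℝ) = qq v at hx
    linarith
  refine ⟨x⁻¹, inv_ne_zero hx0, ?_⟩
  rw [map_inv₀, hx]
  rfl

theorem exists_uniformizer_comp (v : Place k) :
    ∃ ϖ : v.comp, ϖ ≠ 0 ∧ ‖ϖ‖ < 1 ∧ ϖ ∈ Set.range (algebraMap k v.comp) := by
  obtain ⟨x, hx0, hx⟩ := exists_uniformizer v
  refine ⟨algebraMap k v.comp x, ?_, ?_, x, rfl⟩
  · exact (map_ne_zero_iff _ (algebraMap k v.comp).injective).2 hx0
  · rw [norm_alg, hx]
    exact inv_lt_one_of_one_lt₀ (one_lt_qq' v)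

/-- The completion as a nontrivially normed field. -/
@[reducible] def nnfP (v : Place k) : NontriviallyNormedField v.comp :=
  NontriviallyNormedField.ofNormNeOne (by
    obtain ⟨x, h0, h1, -⟩ := exists_uniformizer_comp v
    exact ⟨x, h0, h1.ne⟩)

theorem nebot_comp (v : Place k) : (𝓝[≠] (1 : v.comp)).NeBot := by
  let _ := nnfP v
  exact NormedField.nhdsNE_neBot (α := v.comp) 1

theorem denseRange_comp (v : Place k) : DenseRange (algebraMap k v.comp) := by
  intro x
  rw [Metric.mem_closure_iff]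
  intro ε hε
  obtain ⟨a, ha⟩ := dense_alg v x hε
  exact ⟨_, ⟨a, rfl⟩, by rwa [dist_eq_norm]⟩

end

end Vale.Agent.P011.H565
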