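import Vale.Agent.P011.H565.GenR
import Vale.Agent.P011.H565.PlaceNorm
import Vale.Agent.P011.H519.SplitPlaceK

/-!
# Generation of the unitary group over a function field

`B` a central simple algebra with an anisotropic involution of the second kind over a function
field, every characteristic, `B` need not be a division algebra.
-/

open Matrix Filter Module
open scoped Topology

namespace Vale.Agent.P011.H565

open Vale.Agent.P011.H738 Vale.Agent.P011.H271 Vale.Agent.P011.H519

section main

variable {k K B : Type} [Field k] [Field K] [StarRing K] [Ring B] [StarRing B]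
  [Algebra k K] [Algebra k B] [Algebra K B] [IsScalarTower k K B] [StarModule K B] {n : ℕ}

theorem isOpen_splitReg_comp (q : Place k) {ι : Type*} [Fintype ι] [DecidableEq ι] :
    IsOpen {s : Matrix ι ι q.comp | SplitReg s} :=
  @isOpen_splitReg ι q.comp _ _ (nnfP q) (inferInstanceAs (CompleteSpace q.comp))

theorem star_algKB (c : K) : star (algebraMap K B c) = algebraMap K B (star c) := by
  have h1 := star_smul c (1 : B)
  rwa [star_one, Algebra.smul_def, mul_one, Algebra.smul_def, mul_one] at h1

theorem isUnit_of_splitting (hB : Anis k K B n) (hn : n ≠ 0) {F : Type*} [Field F]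
    (f : B →+* Matrix (Fin n) (Fin n) F) {x : B} (hx : IsUnit (f x)) : IsUnit x := by
  have h1 : FiniteDimensional K B := FiniteDimensional.of_finrank_pos (by
    rw [hB.finrank_eq]; positivity)
  have h2 := hB.simple
  have h3 : Nonempty (Fin n) := ⟨⟨0, Nat.pos_of_ne_zero hn⟩⟩
  exact isUnit_of_injective (K := K) f (RingHom.injective f) hx

theorem span_fst {F : Type*} [Field F] {f : B →+* Matrix (Fin n) (Fin n) F}
    (hspan : Submodule.span F (Set.range fun x : B => (f x, (f (star x)).transpose)) = ⊤) :
    Submodule.span F (Set.range f) = ⊤ := by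
  have h1 := congrArg (Submodule.map (LinearMap.fst F (Matrix (Fin n) (Fin n) F)
    (Matrix (Fin n) (Fin n) F))) hspan
  rw [Submodule.map_span, Submodule.map_top, LinearMap.range_eq_top.2 LinearMap.fst_surjective,
    ← Set.range_comp] at h1
  exact h1

variable {q : Place k} {φ : K →ₐ[k] q.comp} {f : B →+* Matrix (Fin n) (Fin n) q.comp}

/-- **Density of the symmetric elements** at a split place. -/
theorem dense_sym_FF (hB : Anis k K B n)
    (hf : ∀ c : K, f (algebraMap K B c) = algebraMap q.comp _ (φ c))
    (hspan : Submodule.span q.comp (Set.range fun x : B => (f x, (f (star x)).transpose)) = ⊤)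
    (X : Matrix (Fin n) (Fin n) q.comp) {O : Set (Matrix (Fin n) (Fin n) q.comp)}
    (hO : O ∈ 𝓝 X) : ∃ σ : B, star σ = σ ∧ f σ ∈ O := by
  obtain ⟨w, hw⟩ := hB.star_ne
  refine dense_sym_of_span' (w := algebraMap K B w) (ω := φ w) (algebraMap k q.comp)
    (denseRange_comp q) (algebraMap k B) (fun c => ?_) (fun c x => Algebra.commutes c x) f
    (fun c => ?_) (fun x => Algebra.commutes w x) ?_ ?_ (span_fst hspan) X hO
  · rw [IsScalarTower.algebraMap_apply k K B, star_algKB, (hB.fixed _).2 ⟨c, rfl⟩]
  · rw [IsScalarTower.algebraMap_apply k K B, hf, φ.commutes, Algebra.algebraMap_eq_smul_one]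
  · rw [star_algKB, ← map_sub]
    exact (isUnit_iff_ne_zero.2 (sub_ne_zero.2 (Ne.symm hw))).map (algebraMap K B)
  · rw [hf, Algebra.algebraMap_eq_smul_one]

variable {U : Subgroup Bˣ}

/-- The unitary group is dense in `GL_n` at a split place. -/
theorem denseRange_FF (hB : Anis k K B n) (hn : n ≠ 0)
    (hf : ∀ c : K, f (algebraMap K B c) = algebraMap q.comp _ (φ c))
    (hspan : Submodule.span q.comp (Set.range fun x : B => (f x, (f (star x)).transpose)) = ⊤)
    (hU : ∀ g : Bˣ, g ∈ U ↔ (g : B) * star (g : B) = 1) : DenseRange (rhoR f U) := by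
  obtain ⟨w, hw⟩ := hB.star_ne
  have := nebot_comp q
  refine denseRange_rhoR (w := algebraMap K B w) (ω := φ w) (ω' := φ (star w))
    (fun x => Algebra.commutes w x) hU f (fun x hx => isUnit_of_splitting hB hn f hx) ?_ ?_ ?_
    fun X O hO => dense_sym_FF hB hf hspan X hO
  · rw [hf, Algebra.algebraMap_eq_smul_one]
  · rw [star_algKB, hf, Algebra.algebraMap_eq_smul_one]
  · exact fun h => hw (φ.injective h.symm)

/-- **CORE-P11 over function fields.**  A homomorphism from the unitary group which is trivial on
the Cayley transforms `(σ + w) (σ + star w)⁻¹` of the symmetric elements `σ` which are split regular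
at the split place `q` is trivial. -/
theorem hom_eq_one_FF (hB : Anis k K B n) (hn : n ≠ 0)
    (hf : ∀ c : K, f (algebraMap K B c) = algebraMap q.comp _ (φ c))
    (hspan : Submodule.span q.comp (Set.range fun x : B => (f x, (f (star x)).transpose)) = ⊤)
    (hU : ∀ g : Bˣ, g ∈ U ↔ (g : B) * star (g : B) = 1) {w : K} (hw : star w ≠ w)
    {Q : Type*} [Group Q] (c : U →* Q)
    (hc : ∀ σ : B, star σ = σ → f σ ∈ H210.SR (Fin n) q.comp →
      IsUnit (σ + algebraMap K B (star w)) → ∀ u : U,
      ((u : Bˣ) : B) * (σ + algebraMap K B (star w)) = σ + algebraMap K B w → c u = 1) (u : U) :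
    c u = 1 := by
  have := nebot_comp q
  have h := eq_top_of_split' (w := algebraMap K B w) (ω := φ w) (ω' := φ (star w)) (U := U)
    (fun x => Algebra.commutes w x) ?_ hU f (fun x hx => isUnit_of_splitting hB hn f hx) ?_ ?_ ?_
    (fun X O hO => dense_sym_FF hB hf hspan X hO) (isOpen_splitReg_comp q) c.ker
    fun σ h1 h2 h3 u h4 => MonoidHom.mem_ker.2 (hc σ h1 h2 ?_ u ?_)
  · exact MonoidHom.mem_ker.1 (h ▸ Subgroup.mem_top u)
  · rw [star_algKB, ← map_sub]
    exact (isUnit_iff_ne_zero.2 (sub_ne_zero.2 (Ne.symm hw))).map (algebraMap K B)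
  · rw [hf, Algebra.algebraMap_eq_smul_one]
  · rw [star_algKB, hf, Algebra.algebraMap_eq_smul_one]
  · exact fun h => hw (φ.injective h.symm)
  · rwa [star_algKB] at h3
  · rwa [star_algKB] at h4

end main

end Vale.Agent.P011.H565
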