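import Vale.Agent.P011.H308.ColSet
import Vale.Agent.P011.H219.NormalityY

/-!
# Nested boxes and the normality theorem for their colour sets

`H` acts on `V` by continuous additive maps; `B 0 ⊆ B 1 ⊆ …` are boxes in `V` with
`j₀ k • B j ⊆ B (j + 1)` for `k` in a set `K` of generators, with counting ratio at most `C`.  The
colour sets `S j h y` = colours of density at least `ε / C ^ j` in `y ∩ h • B j` satisfy all the
hypotheses of `H219.normality_prod`.
-/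

open MeasureTheory Set Filter
open scoped Pointwise ENNReal NNReal Topology

namespace Vale.Agent.P011.H565

noncomputable section

universe u v

section scales

variable {Γ H P V R : Type*} {G₀ : Type*} [Group Γ] [Group H] [Group G₀]
  [AddCommGroup P] [DistribMulAction Γ P] [AddCommGroup V] [DistribMulAction H V]

/-- Nested boxes. -/
structure Boxes (j₀ : G₀ →* H) (K : Set G₀) (Lam : AddSubgroup P) (i : P →+ V)
    (B : ℕ → Set V) (C : ℝ) : Prop where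
  one_le : 1 ≤ C
  mono : ∀ j, B j ⊆ B (j + 1)
  monoK : ∀ j, ∀ k ∈ K, j₀ k • B j ⊆ B (j + 1)
  fin : ∀ j (h : H) y, (H308.pts Lam i y (h • B j)).Finite
  ratio : ∀ j (h : H) y,
    (H308.cnt Lam i y (h • B (j + 1)) : ℝ) ≤ C * H308.cnt Lam i y (h • B j)
  ratioK : ∀ j, ∀ k ∈ K, ∀ (h : H) y,
    (H308.cnt Lam i y ((h * (j₀ k)⁻¹) • B (j + 1)) : ℝ) ≤ C * H308.cnt Lam i y (h • B j)

/-- The colour sets of the boxes. -/
def scaleSet [Fintype R] (Lam : AddSubgroup P) (i : P →+ V) (f : P → R) (B : ℕ → Set V)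
    (C ε : ℝ) (j : ℕ) (h : H) (y : P ⧸ Lam) : Finset R :=
  H308.colSet Lam i f (ε / C ^ j) y (h • B j)

variable {j₀ : G₀ →* H} {K : Set G₀} {Lam : AddSubgroup P} {i : P →+ V} {f : P → R}
  {B : ℕ → Set V} {C : ℝ} [Fintype R]

theorem scaleSet_subset (hB : Boxes j₀ K Lam i B C) {ε : ℝ} (hε : 0 ≤ ε) (j : ℕ) (h : H)
    (y : P ⧸ Lam) : scaleSet Lam i f B C ε j h y ⊆ scaleSet Lam i f B C ε (j + 1) h y := by
  have hC : 0 < C := lt_of_lt_of_le one_pos hB.one_le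
  refine H308.colSet_subset (C := C) (by positivity) (le_of_eq ?_)
    (Set.smul_set_mono (hB.mono j)) (hB.fin _ _ _) (hB.ratio j h y)
  rw [pow_succ]
  field_simp

theorem scaleSet_subset_mul (hB : Boxes j₀ K Lam i B C) {ε : ℝ} (hε : 0 ≤ ε) (j : ℕ) {k : G₀}
    (hk : k ∈ K) (h : H) (y : P ⧸ Lam) :
    scaleSet Lam i f B C ε j h y ⊆ scaleSet Lam i f B C ε (j + 1) (h * (j₀ k)⁻¹) y := by
  have hC : 0 < C := lt_of_lt_of_le one_pos hB.one_le
  refine H308.colSet_subset (C := C) (by positivity) (le_of_eq ?_) ?_ (hB.fin _ _ _)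
    (hB.ratioK j k hk h y)
  · rw [pow_succ]
    field_simp
  · have h1 := Set.smul_set_mono (a := h * (j₀ k)⁻¹) (hB.monoK j k hk)
    rwa [smul_smul, inv_mul_cancel_right] at h1

theorem scaleSet_nonempty (hB : Boxes j₀ K Lam i B C) [Nonempty R] {ε : ℝ} (hε : 0 ≤ ε)
    (hε1 : ε * Fintype.card R ≤ 1) (j : ℕ) (h : H) (y : P ⧸ Lam) :
    (scaleSet Lam i f B C ε j h y).Nonempty := by
  refine H308.colSet_nonempty (le_trans ?_ hε1) (hB.fin _ _ _)
  have h1 : (1 : ℝ) ≤ C ^ j := one_le_pow₀ hB.one_le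
  gcongr
  exact div_le_self hε h1

omit [Fintype R] in
/-- Equivariance of the counting functions. -/
theorem cnt_smul_mul {ι : Γ →* H} (hL : ∀ (γ : Γ), ∀ ξ ∈ Lam, γ • ξ ∈ Lam)
    (hi : ∀ (γ : Γ) ξ, i (γ • ξ) = ι γ • i ξ) (γ : Γ) (h : H) (y : P ⧸ Lam) (B : Set V) :
    H308.cnt Lam i (H308.cosetAct hL γ y) ((ι γ * h) • B) = H308.cnt Lam i y (h • B) := by
  let _ : MulAction Γ V := MulAction.compHom V ι
  have hi' : ∀ (γ : Γ) ξ, i (γ • ξ) = γ • i ξ := hi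
  have h3 : (γ • (h • B) : Set V) = (ι γ * h) • B := by
    rw [mul_smul]; rfl
  rw [← h3]
  exact H308.cnt_smul hL hi' γ y (h • B)

end scales

section equiv

variable {Γ H P V : Type*} {R : Type} [Group Γ] [Group H]
  [AddCommGroup P] [DistribMulAction Γ P] [AddCommGroup V] [DistribMulAction H V]
  {Lam : AddSubgroup P} {i : P →+ V} {f : P → R} {B : ℕ → Set V} {C : ℝ} [Fintype R]

/-- Equivariance. -/
theorem scaleSet_smul [Group R] {ι : Γ →* H} (hL : ∀ (γ : Γ), ∀ ξ ∈ Lam, γ • ξ ∈ Lam)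
    (hi : ∀ (γ : Γ) ξ, i (γ • ξ) = ι γ • i ξ) {c : Γ → R}
    (hf : ∀ (γ : Γ) ξ, f (γ • ξ) = c γ * f ξ * (c γ)⁻¹) (ε : ℝ) (j : ℕ) (γ : Γ) (h : H)
    (y : P ⧸ Lam) :
    scaleSet Lam i f B C ε j (ι γ * h) (H308.cosetAct hL γ y) =
      H219.conjF (c γ) (scaleSet Lam i f B C ε j h y) := by
  let _ : MulAction Γ V := MulAction.compHom V ι
  have hi' : ∀ (γ : Γ) ξ, i (γ • ξ) = γ • i ξ := hi
  classical
  ext a
  rw [H219.mem_conjF]
  have h1 := H308.colSet_smul (Lam := Lam) (i := i) (f := f) hL hi' (hf γ) (ε / C ^ j) y (h • B j)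
    ((c γ)⁻¹ * a * c γ)
  have h2 : c γ * ((c γ)⁻¹ * a * c γ) * (c γ)⁻¹ = a := by group
  rw [h2] at h1
  have h3 : (γ • (h • B j) : Set V) = (ι γ * h) • B j := by
    rw [mul_smul]; rfl
  rw [h3] at h1
  exact h1

end equiv

section measurable

variable {H P V R : Type*} [Group H] [TopologicalSpace H] [IsTopologicalGroup H]
  [MeasurableSpace H] [BorelSpace H]
  [AddCommGroup P] [Countable P] [AddCommGroup V] [TopologicalSpace V] [MeasurableSpace V]
  [BorelSpace V] [DistribMulAction H V] [ContinuousSMul H V] {Lam : AddSubgroup P} {i : P →+ V}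
  {f : P → R} {B : ℕ → Set V} [Fintype R] {C : ℝ}

theorem measurableSet_scaleSet (hBm : ∀ j, MeasurableSet (B j))
    (hfin : ∀ j (h : H) y, (H308.pts Lam i y (h • B j)).Finite) (ε : ℝ) (j : ℕ) (y : P ⧸ Lam)
    (U : Finset R) : MeasurableSet {h : H | scaleSet Lam i f B C ε j h y = U} := by
  refine H308.measurableSet_colSet_preimage (X := H) (f := f) (ε / C ^ j) y
    (B := fun h => h • B j) (fun ξ => ?_) (fun h => hfin j h y) {U}
  have h1 : {x : H | i ξ ∈ x • B j} = (fun x : H => x⁻¹ • i ξ) ⁻¹' B j := by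
    ext x
    simp [Set.mem_smul_set_iff_inv_smul_mem]
  rw [h1]
  have h2 : Continuous fun x : H => x⁻¹ • i ξ := continuous_inv.smul continuous_const
  exact h2.measurable (hBm j)

end measurable

section normal

variable {Γ H P : Type u} {V : Type*} {G₀ : Type v} [Group Γ] [Countable Γ] [Group G₀] [Group H]
  [TopologicalSpace H] [IsTopologicalGroup H] [T2Space H]
  [LocallyCompactSpace H] [SecondCountableTopology H] [MeasurableSpace H] [BorelSpace H]
  {μ : Measure H} [SFinite μ] [μ.IsMulLeftInvariant] [IsFiniteMeasureOnCompacts μ]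
  [μ.InnerRegularCompactLTTop]
variable [MeasurableSpace G₀] [MeasurableMul G₀] {μ₀ : Measure G₀}
  [SFinite μ₀] [μ₀.IsMulLeftInvariant]
variable {ι : Γ →* H} {j₀ : G₀ →* H}
variable [AddCommGroup P] [Countable P] [DistribMulAction Γ P] [AddCommGroup V]
  [TopologicalSpace V] [MeasurableSpace V] [BorelSpace V] [DistribMulAction H V]
  [ContinuousSMul H V] {Lam : AddSubgroup P} {i : P →+ V}
variable {R : Type} [Group R] [Fintype R] [DecidableEq R] {c : Γ → R} {f : P → R}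
  {B : ℕ → Set V} {C : ℝ}

/-- **Normality of the colour sets of nested boxes.** -/
theorem exists_scale_normal {K : Set G₀} {Cg : ℝ≥0} (hgap : H219.HasGap.{u} G₀ K Cg)
    (hμ₀ : μ₀ ≠ 0) (hj : Measurable j₀) (hN : j₀.range.Normal)
    (hq : ∀ g : G₀, MeasurePreserving (· * j₀ g) μ μ)
    {D : Set H} (hD : MeasurableSet D) (hcov : ∀ h : H, ∃ γ : Γ, ι γ * h ∈ D)
    (hfin : ∀ h : H, {γ : Γ | ι γ * h ∈ D}.Finite)
    (hL : ∀ (γ : Γ), ∀ ξ ∈ Lam, γ • ξ ∈ Lam) (hi : ∀ (γ : Γ) ξ, i (γ • ξ) = ι γ • i ξ)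
    (hf : ∀ (γ : Γ) ξ, f (γ • ξ) = c γ * f ξ * (c γ)⁻¹)
    {W : P ⧸ Lam → ℝ≥0∞} (hW : ∀ (γ : Γ) y, W (H308.cosetAct hL γ y) = W y) (Q : Finset R)
    (happ : ∀ y : P ⧸ Lam, W y ≠ 0 → ∀ r ∈ Q, ∀ O ∈ 𝓝 (1 : H), ∃ γ : Γ,
      H308.cosetAct hL γ y = y ∧ c γ = r ∧ ∃ o ∈ O, ∃ g : G₀, ι γ = o * j₀ g)
    (hB : Boxes j₀ K Lam i B C) (hBm : ∀ j, MeasurableSet (B j)) {ε : ℝ} (hε : 0 ≤ ε)
    {J : ℕ} (hJ : 0 < J) {A : ℝ≥0} (hA : μ D * ∑' y, W y ≤ A) :
    ∃ j < J, ∑' y, W y * ∫⁻ h in {h | ∃ r ∈ Q, H219.conjF r (scaleSet Lam i f B C ε j h y) ≠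
        scaleSet Lam i f B C ε j h y}, H219.fundWeight ι D h ∂μ ≤
      Q.card * (6 * (2 * Cg ^ 2 + 1) * (Fintype.card R * A / J : ℝ≥0)) := by
  let _ : MulAction Γ (P ⧸ Lam) := H308.cosetMulAction hL
  have _ : Countable (P ⧸ Lam) := QuotientAddGroup.mk_surjective.countable
  exact H219.normality_prod (Y := P ⧸ Lam) (c := c) hgap hμ₀ hj hN hq hD hcov hfin hW Q happ
    (S := fun j h y => scaleSet Lam i f B C ε j h y)
    (fun j y U => measurableSet_scaleSet hBm hB.fin ε j y U)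
    (fun j γ h y => scaleSet_smul hL hi hf ε j γ h y)
    (fun j h y => scaleSet_subset hB hε j h y)
    (fun j k hk h y => scaleSet_subset_mul hB hε j hk h y) hJ hA

end normal

end

end Vale.Agent.P011.H565
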