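import Vale.Agent.P011.H565.GenU
import Vale.Agent.P011.H210.SplitReg

/-!
# Density of the symmetric elements at a split place
-/

open Matrix Filter
open scoped Topology

namespace Vale.Agent.P011.H565

section dense

variable {D : Type*} [DivisionRing D] [StarRing D] {w : D}
  {ι : Type*} {F : Type*} [Field F]

/-- Every element is `s + w t` with `s`, `t` symmetric. -/
theorem exists_sym_add (hwc : ∀ x, w * x = x * w) (hws : star w ≠ w) (x : D) :
    ∃ s t : D, star s = s ∧ star t = t ∧ x = s + w * t := by
  have hwc' := star_central hwc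
  have h0 : w - star w ≠ 0 := sub_ne_zero.2 (Ne.symm hws)
  have hc : ∀ y : D, Commute (w - star w) y := fun y => by
    change (w - star w) * y = y * (w - star w)
    rw [sub_mul, mul_sub, hwc, hwc']
  have hc' : ∀ y : D, Commute (w - star w)⁻¹ y := fun y => (hc y).inv_left₀
  set t := (w - star w)⁻¹ * (x - star x) with ht
  have h1 : (w - star w) * t = x - star x := by rw [ht, mul_inv_cancel_left₀ h0]
  have hts : star t = t := by
    have h2 : star ((w - star w) * t) = star (x - star x) := by rw [h1]
    rw [star_mul, star_sub, star_sub, star_star, star_star] at h2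
    have h3 : (w - star w) * star t = x - star x := by
      rw [(hc (star t)).eq, ← neg_inj, ← mul_neg, neg_sub, h2, neg_sub]
    exact mul_left_cancel₀ h0 (h3.trans h1.symm)
  clear_value t
  refine ⟨x - w * t, t, ?_, hts, by abel⟩
  rw [star_sub, star_mul, hts, ← hwc']
  have h4 : w * t - star w * t = x - star x := by rw [← sub_mul, h1]
  rw [sub_eq_sub_iff_add_eq_add] at h4 ⊢
  rw [add_comm, h4]

variable [TopologicalSpace F] [IsTopologicalRing F]

/-- **The symmetric elements are dense at a split place.** -/
theorem dense_sym_of_span {k : Type*} [Field k] (κ : k → F) (hκ : DenseRange κ) (a : k → D)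
    (has : ∀ c, star (a c) = a c) (hac : ∀ c x, a c * x = x * a c) {ι : Type*} [Fintype ι]
    [DecidableEq ι]
    (f : D →+* Matrix ι ι F) (hf : ∀ c, f (a c) = κ c • (1 : Matrix ι ι F))
    (hwc : ∀ x, w * x = x * w) (hws : star w ≠ w) {ω : F} (hω : f w = ω • (1 : Matrix ι ι F))
    (hspan : Submodule.span F (Set.range f) = ⊤) (s : Matrix ι ι F)
    {O : Set (Matrix ι ι F)} (hO : O ∈ 𝓝 s) : ∃ σ : D, star σ = σ ∧ f σ ∈ O := by
  let S₀ : AddSubgroup D :=
    { carrier := {σ | star σ = σ}
      zero_mem' := star_zero D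
      add_mem' := fun {x y} hx hy => by
        change star (x + y) = x + y
        rw [star_add, hx, hy]
      neg_mem' := fun {x} hx => by
        change star (-x) = -x
        rw [star_neg, hx] }
  let S : AddSubgroup (Matrix ι ι F) := S₀.map (f : D →+ Matrix ι ι F)
  let C : AddSubgroup (Matrix ι ι F) := S.topologicalClosure
  have hC : IsClosed (C : Set (Matrix ι ι F)) := S.isClosed_topologicalClosure
  have h1 : ∀ x ∈ S, ∀ c : F, c • x ∈ C := by
    rintro _ ⟨σ, hσ, rfl⟩ c
    have h2 : IsClosed {c : F | c • (f σ) ∈ C} :=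
      hC.preimage (continuous_id.smul continuous_const)
    have h3 : Set.range κ ⊆ {c : F | c • (f σ) ∈ C} := by
      rintro _ ⟨b, rfl⟩
      refine S.le_topologicalClosure ⟨a b * σ, ?_, ?_⟩
      · change star (a b * σ) = a b * σ
        rw [star_mul, has, show star σ = σ from hσ, hac]
      · change f (a b * σ) = κ b • f σ
        rw [map_mul, hf, smul_mul_assoc, one_mul]
    have h4 : closure (Set.range κ) ⊆ {c : F | c • (f σ) ∈ C} := h2.closure_subset_iff.2 h3
    exact h4 (hκ c)
  have h2 : ∀ x ∈ C, ∀ c : F, c • x ∈ C := by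
    intro x hx c
    have h3 : IsClosed {x : Matrix ι ι F | c • x ∈ C} :=
      hC.preimage (continuous_const_smul c)
    have h4 : closure (S : Set (Matrix ι ι F)) ⊆ {x : Matrix ι ι F | c • x ∈ C} :=
      h3.closure_subset_iff.2 fun x hx => h1 x hx c
    exact h4 hx
  let M : Submodule F (Matrix ι ι F) :=
    { C with smul_mem' := fun c x hx => h2 x hx c }
  have h3 : Submodule.span F (Set.range f) ≤ M := by
    rw [Submodule.span_le]
    rintro _ ⟨x, rfl⟩
    obtain ⟨s, t, hs, ht, rfl⟩ := exists_sym_add hwc hws x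
    have hs' : f s ∈ C := S.le_topologicalClosure ⟨s, hs, rfl⟩
    have ht' : f t ∈ C := S.le_topologicalClosure ⟨t, ht, rfl⟩
    change f (s + w * t) ∈ C
    rw [map_add, map_mul, hω, smul_mul_assoc, one_mul]
    exact add_mem hs' (h2 _ ht' ω)
  rw [hspan] at h3
  have h4 : s ∈ C := h3 Submodule.mem_top
  obtain ⟨_, hx, σ, hσ, rfl⟩ := mem_closure_iff_nhds.1 (h4 : s ∈ closure (S : Set _)) O hO
  exact ⟨σ, hσ, hx⟩

end dense

/-- The split regular elements form an open set. -/
theorem isOpen_splitReg {ι F : Type*} [Fintype ι] [DecidableEq ι] [NontriviallyNormedField F]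
    [CompleteSpace F] : IsOpen {s : Matrix ι ι F | SplitReg s} := H210.isOpen_SR

end Vale.Agent.P011.H565
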