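import Mathlib

/-!
# Generation by split regular elements

* `closure_splitReg`: over an infinite field `GL_n(F)` is generated by the elements which are
  conjugate to a diagonal matrix with pairwise different entries.
* `eq_top_of_dense`: if `ρ : U → G` has dense range and the open set `S` generates `G`, every
  subgroup of `U` containing `ρ⁻¹ S` is everything.
* `dense_cay`: density of the Cayley transforms.
* `hom_eq_one`: a homomorphism from the unitary group which is trivial on the Cayley transforms of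
  the split regular symmetric elements is trivial.
-/

open Matrix Filter
open scoped Topology

namespace Vale.Agent.P011.H565

section algebra

variable {ι : Type*} [Fintype ι] [DecidableEq ι] {F : Type*} [Field F]

/-- Conjugate to a diagonal matrix with pairwise different entries. -/
def SplitReg (g : Matrix ι ι F) : Prop :=
  ∃ (h : (Matrix ι ι F)ˣ) (a : ι → F), Function.Injective a ∧
    g = (h : Matrix ι ι F) * diagonal a * ((h⁻¹ : (Matrix ι ι F)ˣ) : Matrix ι ι F)

theorem SplitReg.conj {g : Matrix ι ι F} (hg : SplitReg g) (u : (Matrix ι ι F)ˣ) :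
    SplitReg ((u : Matrix ι ι F) * g * ((u⁻¹ : (Matrix ι ι F)ˣ) : Matrix ι ι F)) := by
  obtain ⟨h, a, ha, rfl⟩ := hg
  refine ⟨u * h, a, ha, ?_⟩
  rw [_root_.mul_inv_rev, Units.val_mul, Units.val_mul]
  noncomm_ring

/-- The invertible diagonal matrix. -/
def dg (b : ι → Fˣ) : (Matrix ι ι F)ˣ where
  val := diagonal fun i => (b i : F)
  inv := diagonal fun i => ((b i)⁻¹ : Fˣ)
  val_inv := by
    rw [diagonal_mul_diagonal]
    simp
  inv_val := by
    rw [diagonal_mul_diagonal]
    simp

theorem dg_mul (b b' : ι → Fˣ) : dg b * dg b' = dg (b * b') := by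
  ext1
  change diagonal _ * diagonal _ = diagonal _
  rw [diagonal_mul_diagonal]
  simp

theorem splitReg_dg {b : ι → Fˣ} (hb : Function.Injective b) :
    SplitReg ((dg b : (Matrix ι ι F)ˣ) : Matrix ι ι F) :=
  ⟨1, fun i => (b i : F), fun i j h => hb (Units.ext h), by simp [dg]⟩

omit [Fintype ι] in
theorem exists_injective_pair [Infinite F] (b : ι → Fˣ) (s : Finset ι) :
    ∃ a : ι → Fˣ, Set.InjOn a s ∧ Set.InjOn (a⁻¹ * b) s := by
  have _ : Infinite Fˣ := by
    rw [← not_finite_iff_infinite]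
    intro h
    have h1 : Finite {x : F // x ≠ 0} := Finite.of_equiv _ unitsEquivNeZero
    have h2 : ({x : F | x ≠ 0} : Set F).Finite := h1
    have h3 : (Set.univ : Set F).Finite := by
      refine (h2.union (Set.finite_singleton 0)).subset fun x _ => ?_
      by_cases hx : x = 0
      · exact Or.inr hx
      · exact Or.inl hx
    exact Set.infinite_univ h3
  classical
  induction s using Finset.induction_on with
  | empty => exact ⟨1, by simp, by simp⟩
  | insert i s hi ih =>
    obtain ⟨a, h1, h2⟩ := ih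
    obtain ⟨x, hx⟩ := Infinite.exists_notMem_finset
      (s.image a ∪ s.image fun j => b i * (b j)⁻¹ * a j)
    rw [Finset.mem_union, not_or] at hx
    have hne : ∀ j ∈ s, Function.update a i x j = a j := fun j hj =>
      Function.update_of_ne (by rintro rfl; exact hi hj) _ _
    refine ⟨Function.update a i x, ?_, ?_⟩
    · rw [Finset.coe_insert, Set.injOn_insert (by simpa using hi)]
      refine ⟨fun j hj k hk hjk => ?_, ?_⟩
      · rw [hne j hj, hne k hk] at hjk
        exact h1 hj hk hjk
      · rintro ⟨j, hj, hji⟩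
        rw [hne j hj, Function.update_self] at hji
        exact hx.1 (Finset.mem_image.2 ⟨j, hj, hji⟩)
    · rw [Finset.coe_insert, Set.injOn_insert (by simpa using hi)]
      refine ⟨fun j hj k hk hjk => ?_, ?_⟩
      · simp only [Pi.mul_apply, Pi.inv_apply, hne j hj, hne k hk] at hjk
        exact h2 hj hk hjk
      · rintro ⟨j, hj, hji⟩
        simp only [Pi.mul_apply, Pi.inv_apply, hne j hj, Function.update_self] at hji
        refine hx.2 (Finset.mem_image.2 ⟨j, hj, ?_⟩)
        have h3 : x = b i * (b j)⁻¹ * a j := by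
          have h4 : x * ((a j)⁻¹ * b j) = b i := by rw [hji]; group
          rw [← h4]; group
        exact h3.symm

variable (ι F) in
/-- The set of the split regular elements. -/
def SRS : Set (Matrix ι ι F)ˣ := {g | SplitReg (g : Matrix ι ι F)}

theorem dg_mem_closure [Infinite F] (b : ι → Fˣ) : dg b ∈ Subgroup.closure (SRS ι F) := by
  obtain ⟨a, h1, h2⟩ := exists_injective_pair b Finset.univ
  have h3 : dg b = dg a * dg (a⁻¹ * b) := by rw [dg_mul]; congr 1; group
  rw [h3]
  refine mul_mem (Subgroup.subset_closure (splitReg_dg ?_)) (Subgroup.subset_closure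
    (splitReg_dg ?_))
  · exact fun i j h => h1 (by simp) (by simp) h
  · exact fun i j h => h2 (by simp) (by simp) h

theorem SRS_nonempty [Infinite F] : (SRS ι F).Nonempty := by
  obtain ⟨a, h1, -⟩ := exists_injective_pair (1 : ι → Fˣ) Finset.univ
  exact ⟨dg a, splitReg_dg fun i j h => h1 (by simp) (by simp) h⟩

/-- The transvection as a unit. -/
def tv {i j : ι} (hij : i ≠ j) (c : F) : (Matrix ι ι F)ˣ where
  val := transvection i j c
  inv := transvection i j (-c)
  val_inv := by rw [transvection_mul_transvection_same i j hij, add_neg_cancel, transvection_zero]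
  inv_val := by rw [transvection_mul_transvection_same i j hij, neg_add_cancel, transvection_zero]

theorem dg_mul_tv {i j : ι} (hij : i ≠ j) (b : ι → Fˣ) (c : F) :
    dg b * tv hij c * (dg b)⁻¹ = tv hij (b i * c * ((b j)⁻¹ : Fˣ)) := by
  rw [mul_inv_eq_iff_eq_mul]
  ext1
  change diagonal _ * transvection i j c = transvection i j _ * diagonal _
  ext k l
  rw [diagonal_mul, mul_diagonal, transvection, transvection, Matrix.add_apply, Matrix.add_apply]
  by_cases hkl : k = i ∧ l = j
  · obtain ⟨rfl, rfl⟩ := hkl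
    rw [one_apply_ne hij, single_apply_same, single_apply_same, zero_add, zero_add, mul_assoc,
      mul_assoc, Units.inv_mul, mul_one]
  · have h1 : ¬ (i = k ∧ j = l) := fun h => hkl ⟨h.1.symm, h.2.symm⟩
    rw [single_apply_of_ne _ _ _ _ _ h1, single_apply_of_ne _ _ _ _ _ h1, add_zero]
    by_cases hk : k = l
    · subst hk; simp
    · rw [one_apply_ne hk]; simp

theorem tv_mem_closure [Infinite F] {i j : ι} (hij : i ≠ j) (c : F) :
    tv hij c ∈ Subgroup.closure (SRS ι F) := by
  obtain ⟨a, h1, -⟩ := exists_injective_pair (1 : ι → Fˣ) Finset.univ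
  have ha : Function.Injective a := fun i j h => h1 (by simp) (by simp) h
  have hd : (a i : F) * ((a j)⁻¹ : Fˣ) - 1 ≠ 0 := by
    intro h
    rw [sub_eq_zero] at h
    have h2 : a i * (a j)⁻¹ = 1 := Units.ext (by rw [Units.val_mul]; exact h)
    exact hij (ha (mul_inv_eq_one.1 h2))
  set c' : F := c / ((a i : F) * ((a j)⁻¹ : Fˣ) - 1) with hc'
  have h3 : tv hij c = dg a * (tv hij c' * (dg a)⁻¹ * (tv hij c')⁻¹) := by
    have h4 : dg a * (tv hij c' * (dg a)⁻¹ * (tv hij c')⁻¹) =
        (dg a * tv hij c' * (dg a)⁻¹) * (tv hij c')⁻¹ := by group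
    rw [h4, dg_mul_tv, eq_mul_inv_iff_mul_eq]
    ext1
    change transvection i j _ * transvection i j _ = transvection i j _
    rw [transvection_mul_transvection_same i j hij]
    congr 1
    rw [hc']
    field_simp
    ring
  rw [h3]
  refine mul_mem (Subgroup.subset_closure (splitReg_dg ha)) ?_
  have h5 : tv hij c' * (dg a)⁻¹ * (tv hij c')⁻¹ = (tv hij c' * dg a * (tv hij c')⁻¹)⁻¹ := by
    group
  rw [h5]
  refine inv_mem (Subgroup.subset_closure ?_)
  exact (splitReg_dg ha).conj _

/-- **`GL_n(F)` is generated by its split regular elements.** -/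
theorem closure_splitReg [Infinite F] : Subgroup.closure (SRS ι F) = ⊤ := by
  rw [eq_top_iff]
  rintro g -
  have hdet : (g : Matrix ι ι F).det ≠ 0 :=
    ((Matrix.isUnit_iff_isUnit_det _).1 g.isUnit).ne_zero
  have key : ∃ u ∈ Subgroup.closure (SRS ι F), (u : Matrix ι ι F) = g := by
    refine diagonal_transvection_induction_of_det_ne_zero
      (fun M => ∃ u ∈ Subgroup.closure (SRS ι F), ((u : (Matrix ι ι F)ˣ) : Matrix ι ι F) = M)
      (g : Matrix ι ι F) hdet ?_ ?_ ?_
    · intro d hd
      rw [det_diagonal, Finset.prod_ne_zero_iff] at hd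
      refine ⟨_, dg_mem_closure fun i => Units.mk0 (d i) (hd i (Finset.mem_univ i)), ?_⟩
      simp [dg]
    · intro t
      exact ⟨_, tv_mem_closure t.hij t.c, rfl⟩
    · rintro A B - - ⟨u, hu, rfl⟩ ⟨v, hv, rfl⟩
      exact ⟨u * v, mul_mem hu hv, rfl⟩
  obtain ⟨u, hu, huv⟩ := key
  rwa [Units.ext huv] at hu

end algebra

section top

variable {U G : Type*} [Group U] [Group G] [TopologicalSpace G] [IsTopologicalGroup G]

/-- If `ρ : U → G` has dense range and the nonempty open set `S` generates `G`, every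
subgroup of `U` containing `ρ⁻¹ S` is everything. -/
theorem eq_top_of_dense (ρ : U →* G) (hρ : DenseRange ρ) {S : Set G} (hS : IsOpen S)
    (hne : S.Nonempty) (hgen : Subgroup.closure S = ⊤) (M : Subgroup U)
    (hM : ∀ u, ρ u ∈ S → u ∈ M) : M = ⊤ := by
  have hmul : ∀ g h : G, (∀ᶠ x in 𝓝 g, ∀ u, ρ u = x → u ∈ M) →
      (∀ᶠ x in 𝓝 h, ∀ u, ρ u = x → u ∈ M) → ∀ᶠ x in 𝓝 (g * h), ∀ u, ρ u = x → u ∈ M := by
    intro g h hg hh
    have h1 : Tendsto (fun y : G => y⁻¹ * (g * h)) (𝓝 g) (𝓝 h) := by
      have : Continuous fun y : G => y⁻¹ * (g * h) := by fun_prop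
      have h2 := this.tendsto g
      rwa [inv_mul_cancel_left] at h2
    have h3 : ∀ᶠ y in 𝓝 g, ∀ᶠ x in 𝓝 (y⁻¹ * (g * h)), ∀ u, ρ u = x → u ∈ M :=
      h1.eventually (eventually_eventually_nhds.2 hh)
    obtain ⟨y, ⟨u₁, rfl⟩, h4, h5⟩ := (hρ.closure_eq ▸ Set.mem_univ g : g ∈ closure _) |>
      (mem_closure_iff_frequently.1 ·) |>.and_eventually (hg.and h3) |>.exists |>
      fun ⟨y, hy, h4, h5⟩ => (⟨y, hy, h4, h5⟩ :
        ∃ y, y ∈ Set.range ρ ∧ (∀ u, ρ u = y → u ∈ M) ∧
          ∀ᶠ x in 𝓝 (y⁻¹ * (g * h)), ∀ u, ρ u = x → u ∈ M)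
    have h6 : Tendsto (fun x : G => (ρ u₁)⁻¹ * x) (𝓝 (g * h)) (𝓝 ((ρ u₁)⁻¹ * (g * h))) :=
      (continuous_const.mul continuous_id).tendsto _
    filter_upwards [h6.eventually h5] with x hx u hu
    have h7 := hx (u₁⁻¹ * u) (by rw [map_mul, map_inv, hu])
    have h8 := mul_mem (h4 u₁ rfl) h7
    rwa [mul_inv_cancel_left] at h8
  have hinv : ∀ g : G, (∀ᶠ x in 𝓝 g, ∀ u, ρ u = x → u ∈ M) →
      ∀ᶠ x in 𝓝 g⁻¹, ∀ u, ρ u = x → u ∈ M := by
    intro g hg
    have h1 : Tendsto (fun y : G => y⁻¹) (𝓝 g⁻¹) (𝓝 g) := by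
      have := (continuous_inv (G := G)).tendsto g⁻¹
      rwa [inv_inv] at this
    filter_upwards [h1.eventually hg] with x hx u hu
    have := hx u⁻¹ (by rw [map_inv, hu])
    exact (inv_mem_iff).1 this
  have hS' : ∀ s ∈ S, ∀ᶠ x in 𝓝 s, ∀ u, ρ u = x → u ∈ M := by
    intro s hs
    filter_upwards [hS.mem_nhds hs] with x hx u hu
    exact hM u (hu ▸ hx)
  have hone : ∀ᶠ x in 𝓝 (1 : G), ∀ u, ρ u = x → u ∈ M := by
    obtain ⟨s, hs⟩ := hne
    have := hmul s s⁻¹ (hS' s hs) (hinv s (hS' s hs))
    rwa [mul_inv_cancel] at this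
  have hall : ∀ g : G, ∀ᶠ x in 𝓝 g, ∀ u, ρ u = x → u ∈ M := by
    intro g
    have hg : g ∈ Subgroup.closure S := by rw [hgen]; trivial
    induction hg using Subgroup.closure_induction with
    | mem x hx => exact hS' x hx
    | one => exact hone
    | mul x y _ _ h1 h2 => exact hmul x y h1 h2
    | inv x _ h1 => exact hinv x h1
  rw [eq_top_iff]
  rintro u -
  exact (hall (ρ u)).self_of_nhds u rfl

end top

end Vale.Agent.P011.H565
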