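import Vale.Agent.P011.H565.Dense

/-!
# Generation of the unitary group by split regular elements: rings with involution

The version of `GenU` for a ring `A` which need not be a division ring; `A` is finite-dimensional
over a field and `f : A →+* M_n(F)` injective, so that `x` is a unit as soon as `f x` is.
-/

open Matrix Filter
open scoped Topology

namespace Vale.Agent.P011.H565

section algebra

variable {ι : Type*} [Fintype ι] [DecidableEq ι] {F : Type*} [Field F]

/-- Split regular elements without eigenvalue one. -/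
def SR1 (ι F : Type*) [Fintype ι] [DecidableEq ι] [Field F] : Set (Matrix ι ι F)ˣ :=
  {g | SplitReg (g : Matrix ι ι F) ∧ IsUnit (1 - (g : Matrix ι ι F))}

omit [Fintype ι] in
theorem exists_injective_pair' [Infinite F] (b : ι → Fˣ) (s : Finset ι) :
    ∃ a : ι → Fˣ, Set.InjOn a s ∧ Set.InjOn (a⁻¹ * b) s ∧ ∀ i ∈ s, a i ≠ 1 ∧ a i ≠ b i := by
  have _ : Infinite Fˣ := by
    rw [← not_finite_iff_infinite]
    intro h
    have h1 : Finite {x : F // x ≠ 0} := Finite.of_equiv _ unitsEquivNeZero
    have h2 : ({x : F | x ≠ 0} : Set F).Finite := h1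
    have h3 : (Set.univ : Set F).Finite := by
      refine (h2.union (Set.finite_singleton 0)).subset fun x _ => ?_
      by_cases hx : x = 0
      · exact Or.inr hx
      · exact Or.inl hx
    exact Set.infinite_univ h3
  classical
  induction s using Finset.induction_on with
  | empty => exact ⟨1, by simp, by simp, by simp⟩
  | insert i s hi ih =>
    obtain ⟨a, h1, h2, h3⟩ := ih
    obtain ⟨x, hx⟩ := Infinite.exists_notMem_finset
      (insert 1 (insert (b i) (s.image a ∪ s.image fun j => b i * (b j)⁻¹ * a j)))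
    rw [Finset.mem_insert, Finset.mem_insert, Finset.mem_union, not_or, not_or, not_or] at hx
    have hne : ∀ j ∈ s, Function.update a i x j = a j := fun j hj =>
      Function.update_of_ne (by rintro rfl; exact hi hj) _ _
    refine ⟨Function.update a i x, ?_, ?_, ?_⟩
    · rw [Finset.coe_insert, Set.injOn_insert (by simpa using hi)]
      refine ⟨fun j hj k hk hjk => ?_, ?_⟩
      · rw [hne j hj, hne k hk] at hjk
        exact h1 hj hk hjk
      · rintro ⟨j, hj, hji⟩
        rw [hne j hj, Function.update_self] at hji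
        exact hx.2.2.1 (Finset.mem_image.2 ⟨j, hj, hji⟩)
    · rw [Finset.coe_insert, Set.injOn_insert (by simpa using hi)]
      refine ⟨fun j hj k hk hjk => ?_, ?_⟩
      · simp only [Pi.mul_apply, Pi.inv_apply, hne j hj, hne k hk] at hjk
        exact h2 hj hk hjk
      · rintro ⟨j, hj, hji⟩
        simp only [Pi.mul_apply, Pi.inv_apply, hne j hj, Function.update_self] at hji
        refine hx.2.2.2 (Finset.mem_image.2 ⟨j, hj, ?_⟩)
        have h3 : x = b i * (b j)⁻¹ * a j := by
          have h4 : x * ((a j)⁻¹ * b j) = b i := by rw [hji]; group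
          rw [← h4]; group
        exact h3.symm
    · intro j hj
      rw [Finset.mem_insert] at hj
      rcases hj with rfl | hj
      · rw [Function.update_self]
        exact ⟨hx.1, hx.2.1⟩
      · rw [hne j hj]
        exact h3 j hj

theorem isUnit_one_sub_conj (p : (Matrix ι ι F)ˣ) (a : ι → F) :
    IsUnit (1 - (p : Matrix ι ι F) * diagonal a * ((p⁻¹ : (Matrix ι ι F)ˣ) : Matrix ι ι F)) ↔
      ∀ i, a i ≠ 1 := by
  have e0 : (1 : Matrix ι ι F) - p * diagonal a * ((p⁻¹ : (Matrix ι ι F)ˣ) : Matrix ι ι F) =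
      p * diagonal (fun i => 1 - a i) * ((p⁻¹ : (Matrix ι ι F)ˣ) : Matrix ι ι F) := by
    have : diagonal (fun i => 1 - a i) = (1 : Matrix ι ι F) - diagonal a := by
      rw [← diagonal_one, ← diagonal_sub]
    rw [this, mul_sub, sub_mul, mul_one, p.mul_inv]
  rw [e0, Units.isUnit_mul_units, Units.isUnit_units_mul, Matrix.isUnit_iff_isUnit_det,
    det_diagonal, isUnit_iff_ne_zero, Finset.prod_ne_zero_iff]
  simp only [Finset.mem_univ, true_imp_iff, sub_ne_zero]
  exact forall_congr' fun i => ne_comm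

theorem SR1_nonempty [Infinite F] : (SR1 ι F).Nonempty := by
  obtain ⟨a, h1, -, h3⟩ := exists_injective_pair' (1 : ι → Fˣ) Finset.univ
  refine ⟨dg a, splitReg_dg fun i j h => h1 (by simp) (by simp) h, ?_⟩
  have h4 := (isUnit_one_sub_conj (1 : (Matrix ι ι F)ˣ) fun i => (a i : F)).2 fun i h =>
    (h3 i (Finset.mem_univ i)).1 (Units.ext h)
  simpa [dg] using h4

theorem closure_SR1 [Infinite F] : Subgroup.closure (SR1 ι F) = ⊤ := by
  rw [eq_top_iff, ← closure_splitReg (ι := ι) (F := F), Subgroup.closure_le]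
  rintro g ⟨p, b, -, hg⟩
  have hb : ∀ i, b i ≠ 0 := by
    have h1 := g.isUnit
    rw [hg, Units.isUnit_mul_units, Units.isUnit_units_mul, Matrix.isUnit_iff_isUnit_det,
      det_diagonal, isUnit_iff_ne_zero, Finset.prod_ne_zero_iff] at h1
    exact fun i => h1 i (Finset.mem_univ i)
  set b' : ι → Fˣ := fun i => Units.mk0 (b i) (hb i) with hb'
  obtain ⟨a, h1, h2, h3⟩ := exists_injective_pair' b' Finset.univ
  have hmem : ∀ a' : ι → Fˣ, Function.Injective a' → (∀ i, a' i ≠ 1) →
      p * dg a' * p⁻¹ ∈ SR1 ι F := by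
    intro a' ha' ha1
    refine ⟨⟨p, fun i => (a' i : F), fun i j h => ha' (Units.ext h), rfl⟩, ?_⟩
    exact (isUnit_one_sub_conj p fun i => (a' i : F)).2 fun i h => ha1 i (Units.ext h)
  have e1 : g = (p * dg a * p⁻¹) * (p * dg (a⁻¹ * b') * p⁻¹) := by
    have e2 : g = p * dg b' * p⁻¹ := by
      ext1
      rw [hg]
      rfl
    have e3 : dg b' = dg a * dg (a⁻¹ * b') := by rw [dg_mul]; congr 1; group
    rw [e2, e3]
    group
  rw [SetLike.mem_coe, e1]
  refine mul_mem (Subgroup.subset_closure (hmem a ?_ ?_)) (Subgroup.subset_closure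
    (hmem _ ?_ ?_))
  · exact fun i j h => h1 (by simp) (by simp) h
  · exact fun i => (h3 i (Finset.mem_univ i)).1
  · exact fun i j h => h2 (by simp) (by simp) h
  · intro i h
    rw [Pi.mul_apply, Pi.inv_apply, inv_mul_eq_one] at h
    exact (h3 i (Finset.mem_univ i)).2 h

end algebra

section cay

variable {A : Type*} [Ring A] [StarRing A] {w : A}

theorem star_central' (hwc : ∀ x, w * x = x * w) (x : A) : star w * x = x * star w := by
  have := congrArg star (hwc (star x))
  rw [star_mul, star_mul, star_star] at this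
  exact this.symm

omit [StarRing A] in
theorem commute_inv_of_commute {a b : A} {t : Aˣ} (h : Commute a (t : A)) (hb : Commute a b) :
    Commute a ((t⁻¹ : Aˣ) * b) := (h.units_inv_right).mul_right hb

/-- The inverse Cayley transform. -/
theorem exists_cay' (hwc : ∀ x, w * x = x * w) (hws : IsUnit (w - star w)) {u : A}
    (hu : u * star u = 1) (hu' : star u * u = 1)
    (hu1 : IsUnit (1 - u)) : ∃ σ : A, star σ = σ ∧ IsUnit (σ + star w) ∧
      u * (σ + star w) = σ + w ∧ (1 - u) * σ = star w * u - w := by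
  have hwc' := star_central' hwc
  obtain ⟨t, ht⟩ := hu1
  refine ⟨((t⁻¹ : Aˣ) : A) * (star w * u - w), ?_, ?_, ?_, ?_⟩
  · set σ := ((t⁻¹ : Aˣ) : A) * (star w * u - w) with hσ
    have e1 : (1 - u) * σ = star w * u - w := by rw [hσ, ← ht, Units.mul_inv_cancel_left]
    have c1 : Commute u (t : A) := by
      rw [ht]
      exact (Commute.one_right u).sub_right (Commute.refl u)
    have c2 : Commute u (star w * u - w) :=
      ((show Commute u (star w) from (hwc' u).symm).mul_right (Commute.refl u)).sub_right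
        (hwc u).symm
    have hcomm : Commute u σ := commute_inv_of_commute c1 c2
    clear_value σ
    have e2 : star σ * (1 - star u) = star u * w - star w := by
      have := congrArg star e1
      rw [star_mul, star_sub, star_sub, star_one, star_mul, star_star] at this
      exact this
    have c3 : Commute (star u) σ := by
      have h1 : star u * σ = star u * (σ * u) * star u := by
        rw [mul_assoc, mul_assoc, hu, mul_one]
      have h2 : star u * (σ * u) * star u = σ * star u := by
        rw [← hcomm.eq, ← mul_assoc, hu', one_mul]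
      exact h1.trans h2
    have e3 : σ * (1 - star u) = star u * w - star w := by
      calc σ * (1 - star u) = -(star u * ((1 - u) * σ)) := by
            rw [mul_sub, mul_one, ← c3.eq, sub_mul, mul_sub, one_mul, ← mul_assoc, hu', one_mul]
            abel
        _ = star u * w - star w := by
            rw [e1, mul_sub, hwc' u, ← mul_assoc, hu', one_mul]
            abel
    have h2 : IsUnit (1 - star u) := by
      have h3 : IsUnit (star (1 - u)) := (ht ▸ t.isUnit : IsUnit (1 - u)).star
      rwa [star_sub, star_one] at h3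
    exact h2.mul_right_cancel (e2.trans e3.symm)
  · have h1 : (t : A) * (((t⁻¹ : Aˣ) : A) * (star w * u - w) + star w) = star w - w := by
      rw [mul_add, Units.mul_inv_cancel_left, ht, sub_mul, one_mul, hwc' u]
      abel
    have h2 : IsUnit ((t : A) * (((t⁻¹ : Aˣ) : A) * (star w * u - w) + star w)) := by
      rw [h1, ← neg_sub]
      exact hws.neg
    rwa [Units.isUnit_units_mul] at h2
  · have e1 : (1 - u) * (((t⁻¹ : Aˣ) : A) * (star w * u - w)) = star w * u - w := by
      rw [← ht, Units.mul_inv_cancel_left]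
    rw [sub_mul, one_mul, sub_eq_sub_iff_add_eq_add] at e1
    rw [mul_add, ← hwc' u, e1]
    abel
  · rw [← ht, Units.mul_inv_cancel_left]

/-- The Cayley transform of a symmetric element is unitary. -/
theorem exists_unit_cay' (hwc : ∀ x, w * x = x * w) {σ : A} (hσ : star σ = σ)
    (h1 : IsUnit (σ + w)) (h2 : IsUnit (σ + star w)) :
    ∃ u : Aˣ, (u : A) * star (u : A) = 1 ∧ star (u : A) * (u : A) = 1 ∧
      (u : A) * (σ + star w) = σ + w := by
  obtain ⟨p, hp⟩ := h1
  obtain ⟨q, hq⟩ := h2
  have ca : Commute σ w := (hwc σ).symm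
  have cb : Commute σ (star w) := (star_central' hwc σ).symm
  have cc : Commute w (star w) := hwc (star w)
  have c1 : Commute (p : A) (q : A) := by
    rw [hp, hq]
    exact ((Commute.refl σ).add_left ca.symm).add_right (cb.add_left cc)
  have cpq : Commute p q := Units.ext c1
  have hsp : star (p : A) = q := by rw [hp, hq, star_add, hσ]
  have hsq : star (q : A) = p := by rw [← hsp, star_star]
  have hsq' : star ((q⁻¹ : Aˣ) : A) = ((p⁻¹ : Aˣ) : A) := by
    have h3 : star ((q⁻¹ : Aˣ) : A) * (p : A) = 1 := by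
      rw [← hsq, ← star_mul, q.mul_inv, star_one]
    have h4 := congrArg (· * ((p⁻¹ : Aˣ) : A)) h3
    simpa [mul_assoc] using h4
  have hstar : star ((p * q⁻¹ : Aˣ) : A) = ((p⁻¹ * q : Aˣ) : A) := by
    rw [Units.val_mul, star_mul, hsp, hsq', Units.val_mul]
  refine ⟨p * q⁻¹, ?_, ?_, ?_⟩
  · rw [hstar, ← Units.val_mul]
    have : p * q⁻¹ * (p⁻¹ * q) = 1 := by
      rw [mul_assoc, ← mul_assoc q⁻¹, ← (cpq.inv_inv).eq, mul_assoc, inv_mul_cancel, mul_one,
        mul_inv_cancel]
    rw [this, Units.val_one]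
  · rw [hstar, ← Units.val_mul]
    have : p⁻¹ * q * (p * q⁻¹) = 1 := by
      rw [mul_assoc, ← mul_assoc q, ← cpq.eq, mul_assoc, mul_inv_cancel, mul_one,
        inv_mul_cancel]
    rw [this, Units.val_one]
  · rw [← hq, ← hp, ← Units.val_mul, inv_mul_cancel_right]

end cay

section main

variable {A : Type*} [Ring A] [StarRing A] {w : A} {U : Subgroup Aˣ}
  {ι : Type*} [Fintype ι] [DecidableEq ι] {F : Type*} [Field F]

theorem star_mul_of_mul_star {g : Aˣ} (h : (g : A) * star (g : A) = 1) :
    star (g : A) * (g : A) = 1 := by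
  have h1 : star (g : A) = ((g⁻¹ : Aˣ) : A) := by
    rw [← Units.mul_right_inj g, h, Units.mul_inv]
  rw [h1, Units.inv_mul]

/-- The unitary group in `GL_n(F)`. -/
def rhoR (f : A →+* Matrix ι ι F) (U : Subgroup Aˣ) : U →* (Matrix ι ι F)ˣ :=
  (Units.map (f : A →* Matrix ι ι F)).comp U.subtype

omit [StarRing A] in
@[simp] theorem rhoR_val (f : A →+* Matrix ι ι F) (u : U) :
    (rhoR f U u : Matrix ι ι F) = f ((u : Aˣ) : A) := rfl

variable [TopologicalSpace F] [IsTopologicalRing F] [ContinuousInv₀ F] [T1Space F]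
  [(𝓝[≠] (1 : F)).NeBot]

/-- **Density of the Cayley transforms.** -/
theorem exists_cay_near' (hwc : ∀ x, w * x = x * w)
    (hU : ∀ g : Aˣ, g ∈ U ↔ (g : A) * star (g : A) = 1)
    (f : A →+* Matrix ι ι F) (hfu : ∀ x, IsUnit (f x) → IsUnit x) {ω ω' : F}
    (hω : f w = ω • (1 : Matrix ι ι F)) (hω' : f (star w) = ω' • (1 : Matrix ι ι F))
    (hne : ω ≠ ω')
    (hdense : ∀ s : Matrix ι ι F, ∀ O ∈ 𝓝 s, ∃ σ : A, star σ = σ ∧ f σ ∈ O)
    (g : (Matrix ι ι F)ˣ) {O : Set (Matrix ι ι F)ˣ} (hO : O ∈ 𝓝 g) :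
    ∃ (σ : A) (u : U), star σ = σ ∧ ((u : Aˣ) : A) * (σ + star w) = σ + w ∧ rhoR f U u ∈ O := by
  obtain ⟨O', hO'O, hO'o, hgO'⟩ := mem_nhds_iff.1 hO
  obtain ⟨g', hg'O, hg'⟩ := exists_near g (hO'o.mem_nhds hgO')
  obtain ⟨t, ht⟩ := hg'
  set s₀ : Matrix ι ι F := ((t⁻¹ : (Matrix ι ι F)ˣ) : Matrix ι ι F) *
    (ω' • (g' : Matrix ι ι F) - ω • 1) with hs₀
  have e1 : (1 - (g' : Matrix ι ι F)) * s₀ = ω' • (g' : Matrix ι ι F) - ω • 1 := by
    rw [hs₀, ← ht, Units.mul_inv_cancel_left]
  have e2 : (g' : Matrix ι ι F) * (s₀ + ω' • 1) = s₀ + ω • 1 := by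
    rw [sub_mul, one_mul, sub_eq_sub_iff_add_eq_add] at e1
    rw [mul_add, mul_smul_comm, mul_one, add_comm, ← e1]
  have hu' : IsUnit (s₀ + ω' • (1 : Matrix ι ι F)) := by
    have e3 : (1 - (g' : Matrix ι ι F)) * (s₀ + ω' • 1) = (ω' - ω) • 1 := by
      rw [sub_mul, one_mul, e2]
      rw [sub_smul]
      abel
    have e4 : IsUnit ((ω' - ω) • (1 : Matrix ι ι F)) := by
      rw [Matrix.isUnit_iff_isUnit_det, det_smul, det_one, mul_one]
      exact (isUnit_iff_ne_zero.2 (sub_ne_zero.2 hne.symm)).pow _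
    rw [← e3, ← ht] at e4
    have e5 := t⁻¹.isUnit.mul e4
    rwa [Units.inv_mul_cancel_left] at e5
  have hu : IsUnit (s₀ + ω • (1 : Matrix ι ι F)) := by
    rw [← e2]
    exact g'.isUnit.mul hu'
  have hev := eventually_cay hu hu' e2 (hO'o.mem_nhds hg'O)
  obtain ⟨σ, hσ, h1, h2, h3⟩ := hdense s₀ _ hev
  obtain ⟨u, huu, -, hu2⟩ := exists_unit_cay' hwc hσ
    (hfu _ (by rw [map_add, hω]; exact h1))
    (hfu _ (by rw [map_add, hω']; exact h2))
  refine ⟨σ, ⟨u, (hU u).2 huu⟩, hσ, hu2, hO'O (h3 _ ?_)⟩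
  rw [rhoR_val, ← hω, ← hω', ← map_add, ← map_add, ← map_mul, hu2]

/-- The unitary group is dense in `GL_n(F)`. -/
theorem denseRange_rhoR (hwc : ∀ x, w * x = x * w)
    (hU : ∀ g : Aˣ, g ∈ U ↔ (g : A) * star (g : A) = 1)
    (f : A →+* Matrix ι ι F) (hfu : ∀ x, IsUnit (f x) → IsUnit x) {ω ω' : F}
    (hω : f w = ω • (1 : Matrix ι ι F)) (hω' : f (star w) = ω' • (1 : Matrix ι ι F))
    (hne : ω ≠ ω')
    (hdense : ∀ s : Matrix ι ι F, ∀ O ∈ 𝓝 s, ∃ σ : A, star σ = σ ∧ f σ ∈ O) :
    DenseRange (rhoR f U) := by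
  intro g
  rw [mem_closure_iff_nhds]
  intro O hO
  obtain ⟨-, u, -, -, h⟩ := exists_cay_near' hwc hU f hfu hω hω' hne hdense g hO
  exact ⟨_, h, u, rfl⟩

/-- **Generation.**  A subgroup of the unitary group which contains the Cayley transforms of the
symmetric elements `σ` with `f σ` split regular is the whole unitary group. -/
theorem eq_top_of_split' (hwc : ∀ x, w * x = x * w) (hws : IsUnit (w - star w))
    (hU : ∀ g : Aˣ, g ∈ U ↔ (g : A) * star (g : A) = 1)
    (f : A →+* Matrix ι ι F) (hfu : ∀ x, IsUnit (f x) → IsUnit x) {ω ω' : F}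
    (hω : f w = ω • (1 : Matrix ι ι F)) (hω' : f (star w) = ω' • (1 : Matrix ι ι F))
    (hne : ω ≠ ω')
    (hdense : ∀ s : Matrix ι ι F, ∀ O ∈ 𝓝 s, ∃ σ : A, star σ = σ ∧ f σ ∈ O)
    (hopen : IsOpen {s : Matrix ι ι F | SplitReg s}) (M : Subgroup U)
    (hM : ∀ σ : A, star σ = σ → SplitReg (f σ) → IsUnit (σ + star w) → ∀ u : U,
      ((u : Aˣ) : A) * (σ + star w) = σ + w → u ∈ M) : M = ⊤ := by
  have _ : Infinite F := by
    have h1 : (Set.univ : Set F).Infinite := infinite_of_mem_nhds (1 : F) Filter.univ_mem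
    exact Set.infinite_univ_iff.1 h1
  have hopen1 : IsOpen (SR1 ι F) := by
    have h1 : IsOpen {g : (Matrix ι ι F)ˣ | SplitReg (g : Matrix ι ι F)} :=
      hopen.preimage Units.continuous_val
    have h2 : Continuous fun g : (Matrix ι ι F)ˣ => (1 - (g : Matrix ι ι F)).det :=
      (continuous_const.sub Units.continuous_val).matrix_det
    have h3 : IsOpen {g : (Matrix ι ι F)ˣ | IsUnit (1 - (g : Matrix ι ι F))} := by
      have h4 : {g : (Matrix ι ι F)ˣ | IsUnit (1 - (g : Matrix ι ι F))} =
          (fun g : (Matrix ι ι F)ˣ => (1 - (g : Matrix ι ι F)).det) ⁻¹' {0}ᶜ := by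
        ext g
        simp [Matrix.isUnit_iff_isUnit_det]
      rw [h4]
      exact (isOpen_compl_singleton).preimage h2
    exact h1.inter h3
  refine eq_top_of_dense (rhoR f U) (denseRange_rhoR hwc hU f hfu hω hω' hne hdense)
    (S := SR1 ι F) hopen1 SR1_nonempty closure_SR1 M fun u hu => ?_
  have h5 : IsUnit (1 - ((u : Aˣ) : A)) := by
    refine hfu _ ?_
    rw [map_sub, map_one]
    exact hu.2
  obtain ⟨σ, hσ, h1, h2, h3⟩ := exists_cay' hwc hws ((hU u).1 u.2)
    (star_mul_of_mul_star ((hU u).1 u.2)) h5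
  refine hM σ hσ ?_ h1 u h2
  refine SplitReg.cay (g := f ((u : Aˣ) : A)) hu.1 hne hu.2 ?_
  have h7 := congrArg f h3
  rw [map_mul, map_sub, map_one, map_sub, map_mul, hω, hω', smul_mul_assoc, one_mul] at h7
  exact h7

end main

section unit

/-- In a finite-dimensional algebra an element is a unit if its image under an injective
homomorphism to a ring is a unit. -/
theorem isUnit_of_injective {K A R : Type*} [Field K] [Ring A] [Algebra K A]
    [FiniteDimensional K A] [Ring R] (f : A →+* R) (hf : Function.Injective f) {x : A}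
    (hx : IsUnit (f x)) : IsUnit x := by
  have h1 : Function.Injective (LinearMap.mulLeft K x) := by
    rw [← LinearMap.ker_eq_bot, LinearMap.ker_eq_bot']
    intro y hy
    have h2 : f x * f y = 0 := by
      rw [← map_mul]
      rw [LinearMap.mulLeft_apply] at hy
      rw [hy, map_zero]
    have h3 : f y = 0 := by
      obtain ⟨t, ht⟩ := hx
      rw [← ht] at h2
      have h4 := congrArg (((t⁻¹ : Rˣ) : R) * ·) h2
      simpa [← mul_assoc] using h4
    exact hf (by rw [h3, map_zero])
  have h2 : Function.Surjective (LinearMap.mulLeft K x) := LinearMap.surjective_of_injective h1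
  obtain ⟨y, hy⟩ := h2 1
  rw [LinearMap.mulLeft_apply] at hy
  refine isUnit_iff_exists.2 ⟨y, hy, ?_⟩
  refine h1 ?_
  rw [LinearMap.mulLeft_apply, LinearMap.mulLeft_apply, ← mul_assoc, hy, one_mul, mul_one]

end unit

section dense

variable {A : Type*} [Ring A] [StarRing A] {w : A} {F : Type*} [Field F]

/-- Every element is `s + w t` with `s`, `t` symmetric. -/
theorem exists_sym_add' (hwc : ∀ x, w * x = x * w) (hws : IsUnit (w - star w)) (x : A) :
    ∃ s t : A, star s = s ∧ star t = t ∧ x = s + w * t := by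
  have hwc' := star_central' hwc
  obtain ⟨p, hp⟩ := hws
  have hc : ∀ y : A, Commute (p : A) y := fun y => by
    change (p : A) * y = y * p
    rw [hp, sub_mul, mul_sub, hwc, hwc']
  set t := ((p⁻¹ : Aˣ) : A) * (x - star x) with ht
  have h1 : (p : A) * t = x - star x := by rw [ht, Units.mul_inv_cancel_left]
  have hsp : star (p : A) = -(p : A) := by rw [hp, star_sub, star_star]; abel
  have hts : star t = t := by
    have h2 : star ((p : A) * t) = star (x - star x) := by rw [h1]
    rw [star_mul, hsp, star_sub, star_star, mul_neg, ← (hc (star t)).eq] at h2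
    have h3 : (p : A) * star t = x - star x := by
      rw [← neg_inj, h2, neg_sub]
    exact p.isUnit.mul_left_cancel (h3.trans h1.symm)
  clear_value t
  refine ⟨x - w * t, t, ?_, hts, by abel⟩
  rw [star_sub, star_mul, hts, ← hwc']
  have h4 : w * t - star w * t = x - star x := by rw [← sub_mul, ← hp, h1]
  rw [sub_eq_sub_iff_add_eq_add] at h4 ⊢
  rw [add_comm, h4]

variable [TopologicalSpace F] [IsTopologicalRing F]

/-- **The symmetric elements are dense at a split place.** -/
theorem dense_sym_of_span' {k : Type*} (κ : k → F) (hκ : DenseRange κ) (a : k → A)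
    (has : ∀ c, star (a c) = a c) (hac : ∀ c x, a c * x = x * a c) {ι : Type*} [Fintype ι]
    [DecidableEq ι]
    (f : A →+* Matrix ι ι F) (hf : ∀ c, f (a c) = κ c • (1 : Matrix ι ι F))
    (hwc : ∀ x, w * x = x * w) (hws : IsUnit (w - star w)) {ω : F}
    (hω : f w = ω • (1 : Matrix ι ι F))
    (hspan : Submodule.span F (Set.range f) = ⊤) (s : Matrix ι ι F)
    {O : Set (Matrix ι ι F)} (hO : O ∈ 𝓝 s) : ∃ σ : A, star σ = σ ∧ f σ ∈ O := by
  let S₀ : AddSubgroup A :=
    { carrier := {σ | star σ = σ}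
      zero_mem' := star_zero A
      add_mem' := fun {x y} hx hy => by
        change star (x + y) = x + y
        rw [star_add, hx, hy]
      neg_mem' := fun {x} hx => by
        change star (-x) = -x
        rw [star_neg, hx] }
  let S : AddSubgroup (Matrix ι ι F) := S₀.map (f : A →+ Matrix ι ι F)
  let C : AddSubgroup (Matrix ι ι F) := S.topologicalClosure
  have hC : IsClosed (C : Set (Matrix ι ι F)) := S.isClosed_topologicalClosure
  have h1 : ∀ x ∈ S, ∀ c : F, c • x ∈ C := by
    rintro _ ⟨σ, hσ, rfl⟩ c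
    have h2 : IsClosed {c : F | c • (f σ) ∈ C} :=
      hC.preimage (continuous_id.smul continuous_const)
    have h3 : Set.range κ ⊆ {c : F | c • (f σ) ∈ C} := by
      rintro _ ⟨b, rfl⟩
      refine S.le_topologicalClosure ⟨a b * σ, ?_, ?_⟩
      · change star (a b * σ) = a b * σ
        rw [star_mul, has, show star σ = σ from hσ, hac]
      · change f (a b * σ) = κ b • f σ
        rw [map_mul, hf, smul_mul_assoc, one_mul]
    have h4 : closure (Set.range κ) ⊆ {c : F | c • (f σ) ∈ C} := h2.closure_subset_iff.2 h3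
    exact h4 (hκ c)
  have h2 : ∀ x ∈ C, ∀ c : F, c • x ∈ C := by
    intro x hx c
    have h3 : IsClosed {x : Matrix ι ι F | c • x ∈ C} :=
      hC.preimage (continuous_const_smul c)
    have h4 : closure (S : Set (Matrix ι ι F)) ⊆ {x : Matrix ι ι F | c • x ∈ C} :=
      h3.closure_subset_iff.2 fun x hx => h1 x hx c
    exact h4 hx
  let M : Submodule F (Matrix ι ι F) :=
    { C with smul_mem' := fun c x hx => h2 x hx c }
  have h3 : Submodule.span F (Set.range f) ≤ M := by
    rw [Submodule.span_le]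
    rintro _ ⟨x, rfl⟩
    obtain ⟨s, t, hs, ht, rfl⟩ := exists_sym_add' hwc hws x
    have hs' : f s ∈ C := S.le_topologicalClosure ⟨s, hs, rfl⟩
    have ht' : f t ∈ C := S.le_topologicalClosure ⟨t, ht, rfl⟩
    change f (s + w * t) ∈ C
    rw [map_add, map_mul, hω, smul_mul_assoc, one_mul]
    exact add_mem hs' (h2 _ ht' ω)
  rw [hspan] at h3
  have h4 : s ∈ C := h3 Submodule.mem_top
  obtain ⟨_, hx, σ, hσ, rfl⟩ := mem_closure_iff_nhds.1 (h4 : s ∈ closure (S : Set _)) O hO
  exact ⟨σ, hσ, hx⟩

end dense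

end Vale.Agent.P011.H565
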