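import Vale.Agent.P011.H565.Gen

/-!
# Generation of the unitary group by split regular elements

`D` a division ring with an involution, `f : D →+* M_n(F)`, `w` a central element of `D` with
`star w ≠ w`, `f w` and `f (star w)` scalar, the image of the symmetric elements dense.  Then the
unitary group is dense in `GL_n(F)`, and a homomorphism which is trivial on the Cayley transforms
`(σ + w) (σ + star w)⁻¹` of the symmetric elements `σ` with `f σ` split regular is trivial.
-/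

open Matrix Filter
open scoped Topology

namespace Vale.Agent.P011.H565

section cay

variable {D : Type*} [DivisionRing D] [StarRing D] {w : D}

theorem star_central (hwc : ∀ x, w * x = x * w) (x : D) : star w * x = x * star w := by
  have := congrArg star (hwc (star x))
  rw [star_mul, star_mul, star_star] at this
  exact this.symm

/-- The inverse Cayley transform. -/
theorem exists_cay (hwc : ∀ x, w * x = x * w) (hws : star w ≠ w) {u : D} (hu : u * star u = 1)
    (hu1 : u ≠ 1) : ∃ σ : D, star σ = σ ∧ σ + star w ≠ 0 ∧ u * (σ + star w) = σ + w ∧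
      (1 - u) * σ = star w * u - w := by
  have hwc' := star_central hwc
  have h1u : (1 - u) ≠ 0 := sub_ne_zero.2 (Ne.symm hu1)
  have hu0 : u ≠ 0 := by rintro rfl; rw [zero_mul] at hu; exact zero_ne_one hu
  have hus : star u = u⁻¹ := eq_inv_of_mul_eq_one_right hu
  refine ⟨(1 - u)⁻¹ * (star w * u - w), ?_, ?_, ?_, ?_⟩
  · set σ := (1 - u)⁻¹ * (star w * u - w) with hσ
    have e1 : (1 - u) * σ = star w * u - w := by rw [hσ, mul_inv_cancel_left₀ h1u]
    have hcomm : Commute u σ := by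
      have c1 : Commute u (1 - u) := (Commute.one_right u).sub_right (Commute.refl u)
      have c2 : Commute u (star w * u - w) :=
        ((show Commute u (star w) from (hwc' u).symm).mul_right (Commute.refl u)).sub_right
          (hwc u).symm
      exact c1.inv_right₀.mul_right c2
    clear_value σ
    have e2 : star σ * (1 - star u) = star u * w - star w := by
      have := congrArg star e1
      rw [star_mul, star_sub, star_sub, star_one, star_mul, star_star] at this
      exact this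
    have e3 : σ * (1 - star u) = star u * w - star w := by
      have c3 : Commute u⁻¹ σ := hcomm.inv_left₀
      calc σ * (1 - star u) = -(u⁻¹ * ((1 - u) * σ)) := by
            rw [hus, mul_sub, mul_one, ← c3.eq, sub_mul, mul_sub, one_mul,
              inv_mul_cancel_left₀ hu0]
            abel
        _ = star u * w - star w := by
            rw [e1, hus, mul_sub, hwc' u, inv_mul_cancel_left₀ hu0]
            abel
    have h2 : (1 - star u) ≠ 0 := by
      intro h
      have := congrArg star h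
      rw [star_sub, star_one, star_star, star_zero] at this
      exact h1u this
    exact mul_right_cancel₀ h2 (e2.trans e3.symm)
  · intro h
    have h1 : (1 - u) * ((1 - u)⁻¹ * (star w * u - w) + star w) = 0 := by rw [h, mul_zero]
    rw [mul_add, mul_inv_cancel_left₀ h1u, sub_mul, one_mul, hwc' u] at h1
    have h2 : star w - w = 0 := by rw [← h1]; abel
    exact hws (sub_eq_zero.1 h2)
  · have e1 : (1 - u) * ((1 - u)⁻¹ * (star w * u - w)) = star w * u - w :=
      mul_inv_cancel_left₀ h1u _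
    rw [sub_mul, one_mul, sub_eq_sub_iff_add_eq_add] at e1
    rw [mul_add, ← hwc' u, e1]
    abel
  · exact mul_inv_cancel_left₀ h1u _

end cay

section split

variable {ι : Type*} [Fintype ι] [DecidableEq ι] {F : Type*} [Field F]

/-- The inverse Cayley transform of a split regular matrix is split regular. -/
theorem SplitReg.cay {g s : Matrix ι ι F} (hg : SplitReg g) {ω ω' : F} (hne : ω ≠ ω')
    (h1 : IsUnit (1 - g)) (h : (1 - g) * s = ω' • g - ω • (1 : Matrix ι ι F)) : SplitReg s := by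
  obtain ⟨p, a, ha, rfl⟩ := hg
  have hp : (p : Matrix ι ι F) * ((p⁻¹ : (Matrix ι ι F)ˣ) : Matrix ι ι F) = 1 := p.mul_inv
  have hp' : ((p⁻¹ : (Matrix ι ι F)ˣ) : Matrix ι ι F) * (p : Matrix ι ι F) = 1 := p.inv_mul
  have e0 : (1 : Matrix ι ι F) - p * diagonal a * ((p⁻¹ : (Matrix ι ι F)ˣ) : Matrix ι ι F) =
      p * diagonal (fun i => 1 - a i) * ((p⁻¹ : (Matrix ι ι F)ˣ) : Matrix ι ι F) := by
    have : diagonal (fun i => 1 - a i) = (1 : Matrix ι ι F) - diagonal a := by
      rw [← diagonal_one, ← diagonal_sub]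
    rw [this, mul_sub, sub_mul, mul_one, hp]
  have ha1 : ∀ i, 1 - a i ≠ 0 := by
    have h2 : IsUnit (diagonal (fun i => 1 - a i)) := by
      rw [e0] at h1
      have h3 := ((p⁻¹).isUnit.mul h1).mul p.isUnit
      have h4 : ((p⁻¹ : (Matrix ι ι F)ˣ) : Matrix ι ι F) * (p * diagonal (fun i => 1 - a i) *
          ((p⁻¹ : (Matrix ι ι F)ˣ) : Matrix ι ι F)) * p = diagonal (fun i => 1 - a i) := by
        rw [← mul_assoc, ← mul_assoc, hp', one_mul, mul_assoc, hp', mul_one]
      rwa [h4] at h3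
    rw [Matrix.isUnit_iff_isUnit_det, det_diagonal, isUnit_iff_ne_zero,
      Finset.prod_ne_zero_iff] at h2
    exact fun i => h2 i (Finset.mem_univ i)
  refine ⟨p, fun i => (ω' * a i - ω) / (1 - a i), ?_, ?_⟩
  · intro i j hij
    have hij' : (ω' * a i - ω) / (1 - a i) = (ω' * a j - ω) / (1 - a j) := hij
    rw [div_eq_div_iff (ha1 i) (ha1 j)] at hij'
    have h2 : (ω' - ω) * (a i - a j) = 0 := by linear_combination hij'
    rcases mul_eq_zero.1 h2 with h3 | h3
    · exact absurd (sub_eq_zero.1 h3).symm hne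
    · exact ha (sub_eq_zero.1 h3)
  · refine h1.mul_left_cancel (h.trans ?_)
    rw [e0]
    have e1 : (p : Matrix ι ι F) * diagonal (fun i => 1 - a i) *
        ((p⁻¹ : (Matrix ι ι F)ˣ) : Matrix ι ι F) *
        (p * diagonal (fun i => (ω' * a i - ω) / (1 - a i)) *
          ((p⁻¹ : (Matrix ι ι F)ˣ) : Matrix ι ι F)) =
        p * (diagonal (fun i => 1 - a i) *
          diagonal (fun i => (ω' * a i - ω) / (1 - a i))) *
          ((p⁻¹ : (Matrix ι ι F)ˣ) : Matrix ι ι F) := by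
      calc _ = (p : Matrix ι ι F) * diagonal (fun i => 1 - a i) *
            (((p⁻¹ : (Matrix ι ι F)ˣ) : Matrix ι ι F) * p) *
            diagonal (fun i => (ω' * a i - ω) / (1 - a i)) *
            ((p⁻¹ : (Matrix ι ι F)ˣ) : Matrix ι ι F) := by noncomm_ring
        _ = _ := by rw [hp', mul_one]; noncomm_ring
    rw [e1, diagonal_mul_diagonal]
    have e2 : (fun i => (1 - a i) * ((ω' * a i - ω) / (1 - a i))) = fun i => ω' * a i - ω := by
      funext i
      rw [mul_div_cancel₀ _ (ha1 i)]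
    rw [e2]
    have e3 : diagonal (fun i => ω' * a i - ω) = ω' • diagonal a - ω • (1 : Matrix ι ι F) := by
      rw [smul_one_eq_diagonal, ← diagonal_smul, ← diagonal_sub]
      rfl
    rw [e3, mul_sub, sub_mul]
    simp only [mul_smul_comm, smul_mul_assoc, mul_one, hp]

end split

section dense

variable {ι : Type*} [Fintype ι] [DecidableEq ι] {F : Type*} [Field F] [TopologicalSpace F]
  [IsTopologicalRing F] [ContinuousInv₀ F]

theorem continuousAt_inv_mat {s : Matrix ι ι F} (hs : IsUnit s) :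
    ContinuousAt (fun x : Matrix ι ι F => x⁻¹) s := by
  refine continuousAt_matrix_inv s ?_
  have h1 : (Ring.inverse : F → F) = Inv.inv := by
    funext x
    exact Ring.inverse_eq_inv x
  rw [h1]
  exact continuousAt_inv₀ ((Matrix.isUnit_iff_isUnit_det _).1 hs).ne_zero

/-- The Cayley transform is continuous into the group of units. -/
theorem eventually_cay [T1Space F] {ω ω' : F} {s₀ : Matrix ι ι F} (h1 : IsUnit (s₀ + ω • (1 : Matrix ι ι F)))
    (h2 : IsUnit (s₀ + ω' • (1 : Matrix ι ι F))) {g : (Matrix ι ι F)ˣ}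
    (hg : (g : Matrix ι ι F) * (s₀ + ω' • (1 : Matrix ι ι F)) = s₀ + ω • (1 : Matrix ι ι F))
    {O : Set (Matrix ι ι F)ˣ} (hO : O ∈ 𝓝 g) :
    ∀ᶠ s in 𝓝 s₀, IsUnit (s + ω • (1 : Matrix ι ι F)) ∧ IsUnit (s + ω' • (1 : Matrix ι ι F)) ∧
      ∀ u : (Matrix ι ι F)ˣ, (u : Matrix ι ι F) * (s + ω' • (1 : Matrix ι ι F)) =
        s + ω • (1 : Matrix ι ι F) → u ∈ O := by
  have hunit : ∀ c : F, IsUnit (s₀ + c • (1 : Matrix ι ι F)) →
      ∀ᶠ s in 𝓝 s₀, IsUnit (s + c • (1 : Matrix ι ι F)) := by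
    intro c hc
    have h3 : Continuous fun s : Matrix ι ι F => (s + c • (1 : Matrix ι ι F)).det :=
      (continuous_id.add continuous_const).matrix_det
    have h4 : (s₀ + c • (1 : Matrix ι ι F)).det ≠ 0 :=
      ((Matrix.isUnit_iff_isUnit_det _).1 hc).ne_zero
    have h5 : ∀ᶠ s in 𝓝 s₀, (s + c • (1 : Matrix ι ι F)).det ≠ 0 :=
      h3.continuousAt.eventually_ne h4
    filter_upwards [h5] with s hs
    exact (Matrix.isUnit_iff_isUnit_det _).2 (isUnit_iff_ne_zero.2 hs)
  have hcont : ∀ c c' : F, IsUnit (s₀ + c' • (1 : Matrix ι ι F)) →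
      Tendsto (fun s : Matrix ι ι F => (s + c • (1 : Matrix ι ι F)) *
        (s + c' • (1 : Matrix ι ι F))⁻¹) (𝓝 s₀)
        (𝓝 ((s₀ + c • (1 : Matrix ι ι F)) * (s₀ + c' • (1 : Matrix ι ι F))⁻¹)) := by
    intro c c' hc'
    have h3 : ContinuousAt (fun s : Matrix ι ι F => s + c • (1 : Matrix ι ι F)) s₀ :=
      (continuous_id.add continuous_const).continuousAt
    have h4 : ContinuousAt (fun s : Matrix ι ι F => s + c' • (1 : Matrix ι ι F)) s₀ :=
      (continuous_id.add continuous_const).continuousAt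
    have h5 : ContinuousAt (fun s : Matrix ι ι F => (s + c' • (1 : Matrix ι ι F))⁻¹) s₀ :=
      ContinuousAt.comp (f := fun s : Matrix ι ι F => s + c' • (1 : Matrix ι ι F))
        (g := fun x : Matrix ι ι F => x⁻¹) (continuousAt_inv_mat hc') h4
    exact h3.mul h5
  have hval : ∀ (s : Matrix ι ι F) (c c' : F) (u : (Matrix ι ι F)ˣ),
      IsUnit (s + c' • (1 : Matrix ι ι F)) →
      (u : Matrix ι ι F) * (s + c' • (1 : Matrix ι ι F)) = s + c • (1 : Matrix ι ι F) →
      (u : Matrix ι ι F) = (s + c • (1 : Matrix ι ι F)) * (s + c' • (1 : Matrix ι ι F))⁻¹ := by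
    intro s c c' u hc' hu
    rw [← hu, mul_assoc, mul_nonsing_inv _ ((Matrix.isUnit_iff_isUnit_det _).1 hc'), mul_one]
  have hinv : ∀ (s : Matrix ι ι F) (u : (Matrix ι ι F)ˣ),
      (u : Matrix ι ι F) * (s + ω' • (1 : Matrix ι ι F)) = s + ω • (1 : Matrix ι ι F) →
      ((u⁻¹ : (Matrix ι ι F)ˣ) : Matrix ι ι F) * (s + ω • (1 : Matrix ι ι F)) =
        s + ω' • (1 : Matrix ι ι F) := by
    intro s u hu
    rw [← hu, Units.inv_mul_cancel_left]
  rw [Units.isEmbedding_embedProduct.isInducing.nhds_eq_comap, mem_comap] at hO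
  obtain ⟨V, hV, hVO⟩ := hO
  rw [Units.embedProduct_apply, nhds_prod_eq, mem_prod_iff] at hV
  obtain ⟨V₁, hV₁, V₂, hV₂, hVV⟩ := hV
  have hV₂' : MulOpposite.op ⁻¹' V₂ ∈ 𝓝 ((g⁻¹ : (Matrix ι ι F)ˣ) : Matrix ι ι F) :=
    MulOpposite.continuous_op.continuousAt hV₂
  have t1 := hcont ω ω' h2
  rw [← hval s₀ ω ω' g h2 hg] at t1
  have t2 := hcont ω' ω h1
  rw [← hval s₀ ω' ω g⁻¹ h1 (hinv s₀ g hg)] at t2
  filter_upwards [hunit ω h1, hunit ω' h2, t1.eventually hV₁, t2.eventually hV₂'] with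
    s hs1 hs2 hs3 hs4
  refine ⟨hs1, hs2, fun u hu => hVO ?_⟩
  rw [Set.mem_preimage, Units.embedProduct_apply]
  refine hVV ⟨?_, ?_⟩
  · change (u : Matrix ι ι F) ∈ V₁
    rw [hval s ω ω' u hs2 hu]
    exact hs3
  · change MulOpposite.op ((u⁻¹ : (Matrix ι ι F)ˣ) : Matrix ι ι F) ∈ V₂
    rw [hval s ω' ω u⁻¹ hs1 (hinv s u hu)]
    exact hs4

/-- In a nondiscrete field a unit is a limit of units `g` with `1 - g` invertible. -/
theorem exists_near [T1Space F] [(𝓝[≠] (1 : F)).NeBot] (g : (Matrix ι ι F)ˣ)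
    {O : Set (Matrix ι ι F)ˣ} (hO : O ∈ 𝓝 g) :
    ∃ g' ∈ O, IsUnit (1 - (g' : Matrix ι ι F)) := by
  classical
  let Ψ : Fˣ → (Matrix ι ι F)ˣ := fun x =>
    Units.map (algebraMap F (Matrix ι ι F)).toMonoidHom x * g
  have hΨ : Continuous Ψ := by
    have h1 : Continuous (Units.map (algebraMap F (Matrix ι ι F)).toMonoidHom) := by
      refine Continuous.units_map _ ?_
      change Continuous fun x : F => algebraMap F (Matrix ι ι F) x
      exact continuous_algebraMap F (Matrix ι ι F)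
    exact h1.mul continuous_const
  have h1 : Ψ ⁻¹' O ∈ 𝓝 (1 : Fˣ) := by
    refine hΨ.continuousAt ?_
    have : Ψ 1 = g := by simp [Ψ]
    rwa [this]
  rw [Units.isEmbedding_val₀.isInducing.nhds_eq_comap, mem_comap] at h1
  obtain ⟨V, hV, hVO⟩ := h1
  have h2 : V.Infinite := infinite_of_mem_nhds (1 : F) hV
  obtain ⟨x, hx, hxb⟩ := h2.exists_notMem_finset
    (insert 0 ((g : Matrix ι ι F).charpoly.roots.toFinset.image fun y => y⁻¹))
  rw [Finset.mem_insert, not_or] at hxb
  refine ⟨Ψ (Units.mk0 x hxb.1), hVO hx, ?_⟩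
  have h3 : (1 : Matrix ι ι F) - (Ψ (Units.mk0 x hxb.1) : Matrix ι ι F) =
      x • (Matrix.scalar ι x⁻¹ - (g : Matrix ι ι F)) := by
    have e1 : (Ψ (Units.mk0 x hxb.1) : Matrix ι ι F) = x • (g : Matrix ι ι F) := by
      simp only [Ψ, Units.val_mul, Units.coe_map]
      change algebraMap F (Matrix ι ι F) x * g = _
      rw [Algebra.algebraMap_eq_smul_one, smul_mul_assoc, one_mul]
    rw [e1, smul_sub]
    congr 1
    rw [Matrix.scalar_apply, ← smul_one_eq_diagonal, smul_smul, mul_inv_cancel₀ hxb.1, one_smul]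
  rw [h3, Matrix.isUnit_iff_isUnit_det, det_smul]
  refine ((isUnit_iff_ne_zero.2 hxb.1).pow _).mul (isUnit_iff_ne_zero.2 fun h4 => hxb.2 ?_)
  rw [← Matrix.eval_charpoly] at h4
  rw [Finset.mem_image]
  refine ⟨x⁻¹, ?_, inv_inv x⟩
  rw [Multiset.mem_toFinset, Polynomial.mem_roots (Matrix.charpoly_monic _).ne_zero]
  exact h4

end dense

section main

variable {D : Type*} [DivisionRing D] [StarRing D] {w : D} {U : Subgroup Dˣ}
  {ι : Type*} [Fintype ι] [DecidableEq ι] {F : Type*} [Field F]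

omit [StarRing D] in
theorem ne_zero_of_isUnit [Nonempty ι] (f : D →+* Matrix ι ι F) {x : D} (h : IsUnit (f x)) :
    x ≠ 0 := by
  rintro rfl
  rw [map_zero] at h
  exact not_isUnit_zero h

/-- The unitary group in `GL_n(F)`. -/
def rho (f : D →+* Matrix ι ι F) (U : Subgroup Dˣ) : U →* (Matrix ι ι F)ˣ :=
  (Units.map (f : D →* Matrix ι ι F)).comp U.subtype

omit [StarRing D] in
@[simp] theorem rho_val (f : D →+* Matrix ι ι F) (u : U) :
    (rho f U u : Matrix ι ι F) = f ((u : Dˣ) : D) := rfl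

/-- The Cayley transform of a symmetric element is unitary. -/
theorem exists_unit_cay (hwc : ∀ x, w * x = x * w) {σ : D} (hσ : star σ = σ)
    (h1 : σ + w ≠ 0) (h2 : σ + star w ≠ 0) :
    ∃ u : Dˣ, (u : D) * star (u : D) = 1 ∧ (u : D) * (σ + star w) = σ + w := by
  have h3 : (σ + w) * (σ + star w)⁻¹ ≠ 0 := mul_ne_zero h1 (inv_ne_zero h2)
  have c1 : Commute (σ + w) (σ + star w) := by
    have ca : Commute σ w := (hwc σ).symm
    have cb : Commute σ (star w) := (star_central hwc σ).symm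
    have cc : Commute w (star w) := hwc (star w)
    exact ((Commute.refl σ).add_left ca.symm).add_right (cb.add_left cc)
  refine ⟨Units.mk0 _ h3, ?_, ?_⟩
  · rw [Units.val_mk0, star_mul, star_inv₀, star_add, star_add, star_star, hσ]
    calc (σ + w) * (σ + star w)⁻¹ * ((σ + w)⁻¹ * (σ + star w)) =
          (σ + w) * ((σ + star w)⁻¹ * (σ + w)⁻¹) * (σ + star w) := by
          simp only [mul_assoc]
      _ = (σ + w) * ((σ + w)⁻¹ * (σ + star w)⁻¹) * (σ + star w) := by
          rw [(c1.inv_left₀.inv_right₀).eq]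
      _ = 1 := by rw [mul_inv_cancel_left₀ h1, inv_mul_cancel₀ h2]
  · rw [Units.val_mk0, inv_mul_cancel_right₀ h2]

variable [Nonempty ι] [TopologicalSpace F] [IsTopologicalRing F] [ContinuousInv₀ F] [T1Space F]
  [(𝓝[≠] (1 : F)).NeBot]

/-- **Density of the Cayley transforms.** -/
theorem exists_cay_near (hwc : ∀ x, w * x = x * w)
    (hU : ∀ g : Dˣ, g ∈ U ↔ (g : D) * star (g : D) = 1) (f : D →+* Matrix ι ι F) {ω ω' : F}
    (hω : f w = ω • (1 : Matrix ι ι F)) (hω' : f (star w) = ω' • (1 : Matrix ι ι F))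
    (hne : ω ≠ ω')
    (hdense : ∀ s : Matrix ι ι F, ∀ O ∈ 𝓝 s, ∃ σ : D, star σ = σ ∧ f σ ∈ O)
    (g : (Matrix ι ι F)ˣ) {O : Set (Matrix ι ι F)ˣ} (hO : O ∈ 𝓝 g) :
    ∃ (σ : D) (u : U), star σ = σ ∧ ((u : Dˣ) : D) * (σ + star w) = σ + w ∧ rho f U u ∈ O := by
  obtain ⟨O', hO'O, hO'o, hgO'⟩ := mem_nhds_iff.1 hO
  obtain ⟨g', hg'O, hg'⟩ := exists_near g (hO'o.mem_nhds hgO')
  obtain ⟨t, ht⟩ := hg'
  set s₀ : Matrix ι ι F := ((t⁻¹ : (Matrix ι ι F)ˣ) : Matrix ι ι F) *
    (ω' • (g' : Matrix ι ι F) - ω • 1) with hs₀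
  have e1 : (1 - (g' : Matrix ι ι F)) * s₀ = ω' • (g' : Matrix ι ι F) - ω • 1 := by
    rw [hs₀, ← ht, Units.mul_inv_cancel_left]
  have e2 : (g' : Matrix ι ι F) * (s₀ + ω' • 1) = s₀ + ω • 1 := by
    rw [sub_mul, one_mul, sub_eq_sub_iff_add_eq_add] at e1
    rw [mul_add, mul_smul_comm, mul_one, add_comm, ← e1]
  have hu' : IsUnit (s₀ + ω' • (1 : Matrix ι ι F)) := by
    have e3 : (1 - (g' : Matrix ι ι F)) * (s₀ + ω' • 1) = (ω' - ω) • 1 := by
      rw [sub_mul, one_mul, e2]
      rw [sub_smul]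
      abel
    have e4 : IsUnit ((ω' - ω) • (1 : Matrix ι ι F)) := by
      rw [Matrix.isUnit_iff_isUnit_det, det_smul, det_one, mul_one]
      exact (isUnit_iff_ne_zero.2 (sub_ne_zero.2 hne.symm)).pow _
    rw [← e3, ← ht] at e4
    have e5 := t⁻¹.isUnit.mul e4
    rwa [Units.inv_mul_cancel_left] at e5
  have hu : IsUnit (s₀ + ω • (1 : Matrix ι ι F)) := by
    rw [← e2]
    exact g'.isUnit.mul hu'
  have hev := eventually_cay hu hu' e2 (hO'o.mem_nhds hg'O)
  obtain ⟨σ, hσ, h1, h2, h3⟩ := hdense s₀ _ hev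
  obtain ⟨u, huu, hu2⟩ := exists_unit_cay hwc hσ
    (ne_zero_of_isUnit f (by rw [map_add, hω]; exact h1))
    (ne_zero_of_isUnit f (by rw [map_add, hω']; exact h2))
  refine ⟨σ, ⟨u, (hU u).2 huu⟩, hσ, hu2, hO'O (h3 _ ?_)⟩
  rw [rho_val, ← hω, ← hω', ← map_add, ← map_add, ← map_mul, hu2]

/-- The unitary group is dense in `GL_n(F)`. -/
theorem denseRange_rho (hwc : ∀ x, w * x = x * w)
    (hU : ∀ g : Dˣ, g ∈ U ↔ (g : D) * star (g : D) = 1) (f : D →+* Matrix ι ι F) {ω ω' : F}
    (hω : f w = ω • (1 : Matrix ι ι F)) (hω' : f (star w) = ω' • (1 : Matrix ι ι F))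
    (hne : ω ≠ ω')
    (hdense : ∀ s : Matrix ι ι F, ∀ O ∈ 𝓝 s, ∃ σ : D, star σ = σ ∧ f σ ∈ O) :
    DenseRange (rho f U) := by
  intro g
  rw [mem_closure_iff_nhds]
  intro O hO
  obtain ⟨-, u, -, -, h⟩ := exists_cay_near hwc hU f hω hω' hne hdense g hO
  exact ⟨_, h, u, rfl⟩

/-- **Generation.**  A subgroup of the unitary group which contains the Cayley transforms of the
symmetric elements `σ` with `f σ` split regular is the whole unitary group. -/
theorem eq_top_of_split (hwc : ∀ x, w * x = x * w)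
    (hU : ∀ g : Dˣ, g ∈ U ↔ (g : D) * star (g : D) = 1) (f : D →+* Matrix ι ι F) {ω ω' : F}
    (hω : f w = ω • (1 : Matrix ι ι F)) (hω' : f (star w) = ω' • (1 : Matrix ι ι F))
    (hne : ω ≠ ω')
    (hdense : ∀ s : Matrix ι ι F, ∀ O ∈ 𝓝 s, ∃ σ : D, star σ = σ ∧ f σ ∈ O)
    (hopen : IsOpen {s : Matrix ι ι F | SplitReg s}) (M : Subgroup U)
    (hM : ∀ σ : D, star σ = σ → SplitReg (f σ) → ∀ u : U,
      ((u : Dˣ) : D) * (σ + star w) = σ + w → u ∈ M) : M = ⊤ := by
  have _ : Infinite F := by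
    have h1 : (Set.univ : Set F).Infinite := infinite_of_mem_nhds (1 : F) Filter.univ_mem
    exact Set.infinite_univ_iff.1 h1
  have hws : star w ≠ w := by
    intro h
    rw [h, hω] at hω'
    obtain ⟨i⟩ := ‹Nonempty ι›
    have := congrFun (congrFun hω' i) i
    simp at this
    exact hne this
  refine eq_top_of_dense (rho f U) (denseRange_rho hwc hU f hω hω' hne hdense) (S := SRS ι F)
    (hopen.preimage Units.continuous_val) SRS_nonempty closure_splitReg M fun u hu => ?_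
  by_cases hu1 : ((u : Dˣ) : D) = 1
  · have : u = 1 := Subtype.ext (Units.ext hu1)
    rw [this]
    exact one_mem M
  obtain ⟨σ, hσ, h1, h2, h3⟩ := exists_cay hwc hws ((hU u).1 u.2) hu1
  refine hM σ hσ ?_ u h2
  have h4 : IsUnit (1 - f ((u : Dˣ) : D)) := by
    have h5 : (1 : D) - ((u : Dˣ) : D) ≠ 0 := sub_ne_zero.2 (Ne.symm hu1)
    have h6 := (isUnit_iff_ne_zero.2 h5).map f
    rwa [map_sub, map_one] at h6
  refine SplitReg.cay (g := f ((u : Dˣ) : D)) hu hne h4 ?_
  have h7 := congrArg f h3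
  rw [map_mul, map_sub, map_one, map_sub, map_mul, hω, hω', smul_mul_assoc, one_mul] at h7
  exact h7

/-- **A homomorphism from the unitary group which is trivial on the Cayley transforms of the split
regular symmetric elements is trivial.** -/
theorem hom_eq_one (hwc : ∀ x, w * x = x * w)
    (hU : ∀ g : Dˣ, g ∈ U ↔ (g : D) * star (g : D) = 1) (f : D →+* Matrix ι ι F) {ω ω' : F}
    (hω : f w = ω • (1 : Matrix ι ι F)) (hω' : f (star w) = ω' • (1 : Matrix ι ι F))
    (hne : ω ≠ ω')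
    (hdense : ∀ s : Matrix ι ι F, ∀ O ∈ 𝓝 s, ∃ σ : D, star σ = σ ∧ f σ ∈ O)
    (hopen : IsOpen {s : Matrix ι ι F | SplitReg s}) {Q : Type*} [Group Q] (c : U →* Q)
    (hc : ∀ σ : D, star σ = σ → SplitReg (f σ) → ∀ u : U,
      ((u : Dˣ) : D) * (σ + star w) = σ + w → c u = 1) (u : U) : c u = 1 := by
  have h := eq_top_of_split hwc hU f hω hω' hne hdense hopen c.ker fun σ h1 h2 u h3 =>
    MonoidHom.mem_ker.2 (hc σ h1 h2 u h3)
  exact MonoidHom.mem_ker.1 (h ▸ Subgroup.mem_top u)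

end main

end Vale.Agent.P011.H565
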