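import Vale.Agent.P011.H565.MatTop

/-!
# The gap data in normed letters

`F` a nonarchimedean locally compact normed field, `O` its closed unit ball, `ϖ` any element with
`0 < ‖ϖ‖ < 1`.
-/

open MeasureTheory Set Filter
open scoped Pointwise ENNReal NNReal Topology

namespace Vale.Agent.P011.H565

noncomputable section

universe u

section normed

variable (F : Type*) [NormedField F] [IsUltrametricDist F]

/-- The closed unit ball. -/
def oball : Subring F where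
  carrier := {x | ‖x‖ ≤ 1}
  mul_mem' := by
    intro x y hx hy
    rw [Set.mem_ofPred_eq, norm_mul]
    exact mul_le_one₀ hx (norm_nonneg _) hy
  one_mem' := by rw [Set.mem_ofPred_eq, norm_one]
  add_mem' := by
    intro x y hx hy
    exact (IsUltrametricDist.norm_add_le_max x y).trans (max_le hx hy)
  zero_mem' := by rw [Set.mem_ofPred_eq, norm_zero]; exact zero_le_one
  neg_mem' := by
    intro x hx
    rw [Set.mem_ofPred_eq, norm_neg]
    exact hx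

variable {F}

theorem mem_oball {x : F} : x ∈ oball F ↔ ‖x‖ ≤ 1 := Iff.rfl

theorem coe_oball : (oball F : Set F) = Metric.closedBall 0 1 := by
  ext x
  rw [SetLike.mem_coe, mem_oball, mem_closedBall_zero_iff]

theorem isOpen_oball : IsOpen (oball F : Set F) := by
  rw [coe_oball]
  exact IsUltrametricDist.isOpen_closedBall 0 one_ne_zero

theorem isCompact_oball [ProperSpace F] : IsCompact (oball F : Set F) := by
  rw [coe_oball]
  exact isCompact_closedBall 0 1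

theorem exists_pow_mul_mem {ϖ : F} (h : ‖ϖ‖ < 1) (x : F) : ∃ n : ℕ, ϖ ^ n * x ∈ oball F := by
  obtain ⟨n, hn⟩ := exists_pow_lt_of_lt_one (y := ‖ϖ‖) (show (0 : ℝ) < (‖x‖ + 1)⁻¹ by positivity) h
  refine ⟨n, ?_⟩
  rw [mem_oball, norm_mul, norm_pow]
  have h1 : 0 < ‖x‖ + 1 := by positivity
  calc ‖ϖ‖ ^ n * ‖x‖ ≤ (‖x‖ + 1)⁻¹ * (‖x‖ + 1) := by gcongr; linarith
    _ = 1 := inv_mul_cancel₀ h1.ne'

theorem inv_mem_oball {x : F} (h : ‖x‖ = 1) : x ≠ 0 ∧ x⁻¹ ∈ oball F := by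
  refine ⟨fun h0 => ?_, ?_⟩
  · rw [h0, norm_zero] at h; exact zero_ne_one h
  · rw [mem_oball, norm_inv, h, inv_one]

/-- **The gap of `SL_n(F)`**, in normed letters: `q ≥ 5` elements of norm at most one with all
differences of norm one. -/
theorem hasGap_norm {ι : Type*} [Fintype ι] [DecidableEq ι] {i₁ i₂ : ι} (h12 : i₁ ≠ i₂) {j₀ : ι}
    (hj1 : j₀ ≠ i₁) (hj2 : j₀ ≠ i₂) {ϖ : F} (h0 : ϖ ≠ 0) (h1 : ‖ϖ‖ < 1) {q : ℕ} (hq : 5 ≤ q)
    (r : Fin q → F) (hr : ∀ k, ‖r k‖ ≤ 1) (hr' : ∀ k l, k ≠ l → ‖r l - r k‖ = 1) :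
    H219.HasGap.{u} (Matrix.SpecialLinearGroup ι F) (H428.gapSet (oball F) h0 i₁ i₂)
      (H428.gapC q) :=
  H428.hasGap_sl h12 hj1 hj2 (O := oball F) (ϖ := ϖ) h1.le h0 (exists_pow_mul_mem h1) hq r hr
    fun k l hkl => inv_mem_oball (hr' k l hkl)

end normed

section padic

variable {p : ℕ} [Fact p.Prime]

theorem natCast_p_ne_zero : (p : ℚ_[p]) ≠ 0 := by
  exact_mod_cast (Fact.out : p.Prime).ne_zero

theorem norm_sub_natCast (k l : Fin p) (hkl : k ≠ l) :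
    ‖((l : ℕ) : ℚ_[p]) - ((k : ℕ) : ℚ_[p])‖ = 1 := by
  have h1 : ((l : ℕ) : ℚ_[p]) - ((k : ℕ) : ℚ_[p]) = ((((l : ℕ) : ℤ) - ((k : ℕ) : ℤ) : ℤ) : ℚ_[p]) := by
    push_cast
    rfl
  rw [h1]
  refine le_antisymm (Padic.norm_int_le_one _) (not_lt.1 fun h => ?_)
  rw [Padic.norm_intCast_lt_one_iff] at h
  have h2 := Int.eq_zero_of_abs_lt_dvd h (by
    rw [abs_lt]
    have := k.2
    have := l.2
    constructor <;> omega)
  exact hkl (Fin.ext (by omega))

/-- **The gap of `SL_n(ℚ_p)`**, `p ≥ 5`. -/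
theorem hasGap_padic {ι : Type*} [Fintype ι] [DecidableEq ι] {i₁ i₂ : ι} (h12 : i₁ ≠ i₂) {j₀ : ι}
    (hj1 : j₀ ≠ i₁) (hj2 : j₀ ≠ i₂) (hp : 5 ≤ p) :
    H219.HasGap.{u} (Matrix.SpecialLinearGroup ι ℚ_[p])
      (H428.gapSet (oball ℚ_[p]) (natCast_p_ne_zero (p := p)) i₁ i₂) (H428.gapC p) := by
  refine hasGap_norm h12 hj1 hj2 _ Padic.norm_p_lt_one hp (fun k => ((k : ℕ) : ℚ_[p]))
    (fun k => ?_) fun k l hkl => norm_sub_natCast k l hkl
  exact_mod_cast Padic.norm_int_le_one (p := p) ((k : ℕ) : ℤ)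

end padic

end

end Vale.Agent.P011.H565
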