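import Vale.Agent.P011.H565.Boxes
import Mathlib

/-!
# Counting ratios, uniformly over a compact set of group elements
-/

open MeasureTheory Set Filter
open scoped Pointwise ENNReal NNReal Topology

namespace Vale.Agent.P011.H565

noncomputable section

section cpt

variable {H V : Type*} [Group H] [TopologicalSpace H] [IsTopologicalGroup H]
  [AddCommGroup V] [TopologicalSpace V] [DistribMulAction H V] [ContinuousSMul H V]

omit [IsTopologicalGroup H] in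
theorem isCompact_smul {KH : Set H} (hKH : IsCompact KH) {K : Set V} (hK : IsCompact K) :
    IsCompact (KH • K) := by
  rw [← Set.image_smul_prod]
  exact (hKH.prod hK).image continuous_smul

omit [IsTopologicalGroup H] in
/-- A neighbourhood of zero which is mapped into `W` by a compact set. -/
theorem exists_nhds_smul {KH : Set H} (hKH : IsCompact KH) {W : Set V} (hW : W ∈ 𝓝 (0 : V)) :
    ∃ W' ∈ 𝓝 (0 : V), ∀ h ∈ KH, ∀ w ∈ W', h • w ∈ W := by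
  have h1 : ∀ h ∈ KH, ∃ U ∈ 𝓝 h, ∃ W' ∈ 𝓝 (0 : V), ∀ g ∈ U, ∀ w ∈ W', g • w ∈ W := by
    intro h _
    have h2 : ∀ᶠ p : H × V in 𝓝 (h, (0 : V)), p.1 • p.2 ∈ W := by
      refine (continuous_smul (M := H) (X := V)).continuousAt.eventually ?_
      simpa using hW
    rw [nhds_prod_eq, Filter.eventually_prod_iff] at h2
    obtain ⟨pa, ha, pb, hb, hab⟩ := h2
    exact ⟨{g | pa g}, ha, {w | pb w}, hb, fun g hg w hw => hab hg hw⟩
  choose! U hU W' hW' hUW using h1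
  obtain ⟨t, ht, hcov⟩ := hKH.elim_nhds_subcover U hU
  refine ⟨⋂ h ∈ t, W' h, (Filter.biInter_finset_mem t).2 fun h hh => hW' h (ht h hh), ?_⟩
  intro h hh w hw
  obtain ⟨g, hg, hgU⟩ := mem_iUnion₂.1 (hcov hh)
  exact hUW g (ht g hg) h hgU w (mem_iInter₂.1 hw g hg)

variable [IsTopologicalAddGroup V] [LocallyCompactSpace V] [MeasurableSpace V] [BorelSpace V]

omit [IsTopologicalGroup H] in
/-- The modulus is bounded on compact sets. -/
theorem exists_modulus_le (μ : Measure V) [μ.IsAddHaarMeasure] [μ.Regular] {KH : Set H}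
    (hKH : IsCompact KH) : ∃ M : ℝ, 0 < M ∧ ∀ h ∈ KH, ∀ s : Set V,
      μ (h • s) ≤ ENNReal.ofReal M * μ s := by
  obtain ⟨U, hU, hU0⟩ := exists_compact_mem_nhds (0 : V)
  have hU1 : μ U ≠ 0 := (Measure.measure_pos_of_mem_nhds μ hU0).ne'
  have hU2 : μ U ≠ ∞ := hU.measure_ne_top
  have hKU : μ (KH • U) ≠ ∞ := (isCompact_smul hKH hU).measure_ne_top
  refine ⟨(μ (KH • U) / μ U).toReal + 1, by positivity, fun h hh s => ?_⟩
  have h1 := MeasureTheory.distribHaarChar_mul (G := H) (A := V) μ h s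
  rw [← h1]
  gcongr
  rw [MeasureTheory.distribHaarChar_eq_div hU1 hU2 h]
  have h2 : μ (h • U) / μ U ≤ μ (KH • U) / μ U := by
    gcongr
    exact Set.smul_set_subset_smul hh
  refine h2.trans ?_
  rw [ENNReal.le_ofReal_iff_toReal_le]
  · linarith
  · exact (ENNReal.div_lt_top hKU hU1).ne
  · positivity

end cpt

section ratio

variable {H P V : Type*} [Group H] [TopologicalSpace H] [IsTopologicalGroup H]
  [AddCommGroup P] {Lam : AddSubgroup P} [AddCommGroup V] [TopologicalSpace V]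
  [DistribMulAction H V] [ContinuousSMul H V] {i : P →+ V}
  [IsTopologicalAddGroup V] [LocallyCompactSpace V] [T2Space V] [MeasurableSpace V] [BorelSpace V]

/-- **Counting ratio**, uniform in the box and in `h₁, h₂` in a compact subset of `H`. -/
theorem exists_ratio_smul (μ : Measure V) [μ.IsAddHaarMeasure] [μ.Regular]
    (hlat : H308.IsLat i Lam) (hinj : ∀ l ∈ Lam, i l = 0 → l = 0) {KH : Set H}
    (hKH : IsCompact KH) {W : Set V} (hW : W ∈ 𝓝 (0 : V)) :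
    ∃ (C : ℝ) (K₁ : Set V), 0 < C ∧ IsCompact K₁ ∧
      ∀ (B₁ B₁' B₂ B₂'' K : Set V) (A : ℝ), 0 ≤ A → IsCompact K → B₁ ⊆ K → B₂ ⊆ K →
        (∀ v ∈ B₁', ∀ κ ∈ K₁, v - κ ∈ B₁) → (∀ v ∈ B₂, ∀ w ∈ W, v + w ∈ B₂'') →
        μ B₂'' ≤ ENNReal.ofReal A * μ B₁' →
        ∀ h₁ ∈ KH, ∀ h₂ ∈ KH, ∀ y : P ⧸ Lam,
          (H308.cnt Lam i y (h₂ • B₂) : ℝ) ≤ C * A * H308.cnt Lam i y (h₁ • B₁) := by
  obtain ⟨K₀, hK₀, hcov⟩ := hlat.coc
  obtain ⟨W', hW', hWW⟩ := exists_nhds_smul (KH := KH⁻¹) hKH.inv hW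
  obtain ⟨C, hC, hr⟩ := hlat.exists_ratio μ hinj hW' hK₀ hcov
  obtain ⟨M, hM, hmod⟩ := exists_modulus_le μ hKH
  obtain ⟨M', hM', hmod'⟩ := exists_modulus_le μ (KH := KH⁻¹) hKH.inv
  refine ⟨C * (M * M'), KH⁻¹ • K₀, by positivity, isCompact_smul hKH.inv hK₀, ?_⟩
  intro B₁ B₁' B₂ B₂'' K A hA hK hB₁ hB₂ h1 h2 h3 h₁ hh₁ h₂ hh₂ y
  have h4 := hr (h₁ • B₁) (h₁ • B₁') (h₂ • B₂) (h₂ • B₂'') (KH • K) (M * M' * A) (by positivity)
    (isCompact_smul hKH hK)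
    ((Set.smul_set_mono hB₁).trans (Set.smul_set_subset_smul hh₁))
    ((Set.smul_set_mono hB₂).trans (Set.smul_set_subset_smul hh₂)) ?_ ?_ ?_ y
  · calc (H308.cnt Lam i y (h₂ • B₂) : ℝ) ≤ _ := h4
      _ = _ := by ring
  · rintro _ ⟨v, hv, rfl⟩ κ hκ
    rw [Set.mem_smul_set_iff_inv_smul_mem]
    simp only [smul_sub, inv_smul_smul]
    exact h1 v hv _ (Set.smul_mem_smul (Set.inv_mem_inv.2 hh₁) hκ)
  · rintro _ ⟨v, hv, rfl⟩ w hw
    rw [Set.mem_smul_set_iff_inv_smul_mem]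
    simp only [smul_add, inv_smul_smul]
    exact h2 v hv _ (hWW _ (Set.inv_mem_inv.2 hh₂) w hw)
  · have e1 : μ B₁' ≤ ENNReal.ofReal M' * μ (h₁ • B₁') := by
      have := hmod' h₁⁻¹ (Set.inv_mem_inv.2 hh₁) (h₁ • B₁')
      rwa [inv_smul_smul] at this
    calc μ (h₂ • B₂'') ≤ ENNReal.ofReal M * μ B₂'' := hmod h₂ hh₂ _
      _ ≤ ENNReal.ofReal M * (ENNReal.ofReal A * μ B₁') := by gcongr
      _ ≤ ENNReal.ofReal M * (ENNReal.ofReal A * (ENNReal.ofReal M' * μ (h₁ • B₁'))) := by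
          gcongr
      _ = ENNReal.ofReal (M * M' * A) * μ (h₁ • B₁') := by
          rw [ENNReal.ofReal_mul (by positivity), ENNReal.ofReal_mul hM.le]
          ring

/-- **Existence of the constants for nested boxes**: `C₀`, `K₁` depend only on the lattice, on the
compact set `KH` and on `W`; then every system of nested boxes with `μ (B'' (j+1)) ≤ A μ (B' j)`
(`B' j` = interior part, `B'' j` = thickening) has counting ratio at most `C₀ A`. -/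
theorem exists_boxes {Γ G₀ : Type*} [Group Γ] [Group G₀] [DistribMulAction Γ P] (μ : Measure V)
    [μ.IsAddHaarMeasure] [μ.Regular]
    (hlat : H308.IsLat i Lam) (hinj : ∀ l ∈ Lam, i l = 0 → l = 0)
    {ι : Γ →* H} (hL : ∀ (γ : Γ), ∀ ξ ∈ Lam, γ • ξ ∈ Lam)
    (hi : ∀ (γ : Γ) ξ, i (γ • ξ) = ι γ • i ξ) {D : Set H} (hcov : ∀ h : H, ∃ γ : Γ, ι γ * h ∈ D)
    {j₀ : G₀ →* H} {K : Set G₀} {KH : Set H} (hKH : IsCompact KH) (hD : D ⊆ KH)
    (hDK : ∀ k ∈ K, ∀ h ∈ D, h * (j₀ k)⁻¹ ∈ KH) {W : Set V} (hW : W ∈ 𝓝 (0 : V)) :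
    ∃ (C₀ : ℝ) (K₁ : Set V), 0 < C₀ ∧ IsCompact K₁ ∧
      ∀ (B B' B'' : ℕ → Set V) (A : ℝ), 0 ≤ A → (∀ j, ∃ K', IsCompact K' ∧ B j ⊆ K') →
        (∀ j, B j ⊆ B (j + 1)) → (∀ j, ∀ k ∈ K, j₀ k • B j ⊆ B (j + 1)) →
        (∀ j, ∀ v ∈ B' j, ∀ κ ∈ K₁, v - κ ∈ B j) → (∀ j, ∀ v ∈ B j, ∀ w ∈ W, v + w ∈ B'' j) →
        (∀ j, μ (B'' (j + 1)) ≤ ENNReal.ofReal A * μ (B' j)) →
        Boxes j₀ K Lam i B (max 1 (C₀ * A)) := by
  obtain ⟨C₀, K₁, hC₀, hK₁, hr⟩ := exists_ratio_smul μ hlat hinj hKH hW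
  refine ⟨C₀, K₁, hC₀, hK₁, fun B B' B'' A hA hB hmono hmonoK h1 h2 h3 => ?_⟩
  have key : ∀ j, ∀ h₁ ∈ KH, ∀ h₂ ∈ KH, ∀ y : P ⧸ Lam,
      (H308.cnt Lam i y (h₂ • B (j + 1)) : ℝ) ≤
        max 1 (C₀ * A) * H308.cnt Lam i y (h₁ • B j) := by
    intro j h₁ hh₁ h₂ hh₂ y
    obtain ⟨K', hK', hBK⟩ := hB (j + 1)
    refine (hr (B j) (B' j) (B (j + 1)) (B'' (j + 1)) K' A hA hK' ((hmono j).trans hBK) hBK
      (h1 j) (h2 (j + 1)) (h3 j) h₁ hh₁ h₂ hh₂ y).trans ?_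
    gcongr
    exact le_max_right _ _
  refine ⟨le_max_left _ _, hmono, hmonoK, ?_, ?_, ?_⟩
  · intro j h y
    obtain ⟨K', hK', hBK⟩ := hB j
    exact hlat.pts_finite (K := h • K') (hK'.smul h) (Set.smul_set_mono hBK) y
  · intro j h y
    obtain ⟨γ, hγ⟩ := hcov h
    have := key j _ (hD hγ) _ (hD hγ) (H308.cosetAct hL γ y)
    rwa [cnt_smul_mul hL hi, cnt_smul_mul hL hi] at this
  · intro j k hk h y
    obtain ⟨γ, hγ⟩ := hcov h
    have := key j _ (hD hγ) _ (hDK k hk _ hγ) (H308.cosetAct hL γ y)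
    rwa [mul_assoc, cnt_smul_mul hL hi, cnt_smul_mul hL hi] at this

end ratio

end

end Vale.Agent.P011.H565
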