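import Vale.Agent.P011.H428.HasGapSL
import Vale.Agent.P011.H565.Ratio

/-!
# The boxes `ϖ⁻ᵐ M_n(O)` in `M_n(F)`
-/

open MeasureTheory Set Filter
open scoped Pointwise ENNReal NNReal Topology

namespace Vale.Agent.P011.H565

noncomputable section

section algebra

variable {ι : Type*} {F : Type*} [Field F]

/-- `ϖ⁻ᵐ M_n(O)`. -/
def ball (O : Subring F) (ϖ : F) (m : ℕ) : AddSubgroup (Matrix ι ι F) where
  carrier := {x | ∀ a b, ϖ ^ m * x a b ∈ O}
  zero_mem' := by intro a b; simp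
  add_mem' := by
    intro x y hx hy a b
    rw [Matrix.add_apply, mul_add]
    exact O.add_mem (hx a b) (hy a b)
  neg_mem' := by
    intro x hx a b
    rw [Matrix.neg_apply, mul_neg]
    exact O.neg_mem (hx a b)

theorem mem_ball {O : Subring F} {ϖ : F} {m : ℕ} {x : Matrix ι ι F} :
    x ∈ ball O ϖ m ↔ ∀ a b, ϖ ^ m * x a b ∈ O := Iff.rfl

theorem ball_mono {O : Subring F} {ϖ : F} (hϖ : ϖ ∈ O) {m m' : ℕ} (h : m ≤ m') :
    (ball O ϖ m : AddSubgroup (Matrix ι ι F)) ≤ ball O ϖ m' := by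
  intro x hx a b
  obtain ⟨d, rfl⟩ := Nat.exists_eq_add_of_le h
  rw [pow_add, mul_comm (ϖ ^ m), mul_assoc]
  exact O.mul_mem (O.pow_mem hϖ d) (hx a b)

variable [Fintype ι]

/-- Products. -/
theorem mul_mem_ball {O : Subring F} {ϖ : F} {m m' : ℕ} {x y : Matrix ι ι F}
    (hx : x ∈ ball O ϖ m) (hy : y ∈ ball O ϖ m') : x * y ∈ ball O ϖ (m + m') := by
  intro a b
  rw [Matrix.mul_apply, Finset.mul_sum]
  refine O.sum_mem fun c _ => ?_
  have : ϖ ^ (m + m') * (x a c * y c b) = (ϖ ^ m * x a c) * (ϖ ^ m' * y c b) := by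
    rw [pow_add]; ring
  rw [this]
  exact O.mul_mem (hx a c) (hy c b)

theorem exists_mem_ball {O : Subring F} {ϖ : F} (hϖ : ϖ ∈ O)
    (hfrac : ∀ x : F, ∃ n : ℕ, ϖ ^ n * x ∈ O) (x : Matrix ι ι F) : ∃ m, x ∈ ball O ϖ m := by
  choose n hn using fun p : ι × ι => hfrac (x p.1 p.2)
  refine ⟨∑ p, n p, fun a b => ?_⟩
  have h1 : n (a, b) ≤ ∑ p, n p := Finset.single_le_sum (f := n) (fun _ _ => Nat.zero_le _)
    (Finset.mem_univ (a, b))
  obtain ⟨d, hd⟩ := Nat.exists_eq_add_of_le h1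
  rw [hd, pow_add, mul_comm (ϖ ^ n (a, b)), mul_assoc]
  exact O.mul_mem (O.pow_mem hϖ d) (hn (a, b))

variable [DecidableEq ι]

theorem parK_entry {O : Subring F} {ϖ : F} {d : ι → F} {hd : ∀ i, d i ≠ 0}
    (h1 : ∀ i, d i ∈ O) (h2 : ∀ i, ϖ * (d i)⁻¹ ∈ O) {k : Matrix.SpecialLinearGroup ι F}
    (hk : k ∈ H428.parK O d hd) : (k : Matrix ι ι F) ∈ ball O ϖ 1 := by
  intro a b
  have e : ϖ ^ 1 * (k : Matrix ι ι F) a b =
      (ϖ * (d a)⁻¹) * (d a * (k : Matrix ι ι F) a b * (d b)⁻¹) * d b := by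
    have := hd a
    have := hd b
    field_simp
  rw [e]
  exact O.mul_mem (O.mul_mem (h2 a) (hk a b)) (h1 b)

/-- The elements of the generating set of the gap theorem are in `ϖ⁻¹ M_n(O)`, with their
inverses. -/
theorem gapSet_entry {O : Subring F} {ϖ : F} (hϖ : ϖ ∈ O) {h0 : ϖ ≠ 0} {i₁ i₂ : ι}
    {k : Matrix.SpecialLinearGroup ι F} (hk : k ∈ H428.gapSet O h0 i₁ i₂) :
    (k : Matrix ι ι F) ∈ ball O ϖ 1 ∧ ((k⁻¹ : Matrix.SpecialLinearGroup ι F) : Matrix ι ι F) ∈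
      ball O ϖ 1 := by
  rcases hk with (hk | hk) | hk
  · constructor
    · intro a b
      exact O.mul_mem (by simpa using hϖ) (hk a b)
    · intro a b
      refine O.mul_mem (by simpa using hϖ) ?_
      rw [Matrix.SpecialLinearGroup.coe_inv]
      rw [Matrix.adjugate_apply, Matrix.det_apply]
      refine O.sum_mem fun σ _ => ?_
      rw [Units.smul_def]
      refine O.zsmul_mem (O.prod_mem fun c _ => ?_) _
      by_cases hc : σ c = b
      · rw [hc, Matrix.updateRow_self]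
        by_cases hc' : c = a
        · subst hc'; simp
        · rw [Pi.single_eq_of_ne hc']; exact O.zero_mem
      · rw [Matrix.updateRow_ne hc]
        exact hk _ _
  · have h1 : ∀ i : ι, (if i = i₁ then (1 : F) else ϖ) ∈ O := by
      intro i; split_ifs
      · exact O.one_mem
      · exact hϖ
    have h2 : ∀ i : ι, ϖ * (if i = i₁ then (1 : F) else ϖ)⁻¹ ∈ O := by
      intro i; split_ifs
      · simpa using hϖ
      · rw [mul_inv_cancel₀ h0]; exact O.one_mem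
    exact ⟨parK_entry h1 h2 hk, parK_entry h1 h2 (inv_mem hk)⟩
  · have h1 : ∀ i : ι, (if i = i₁ ∨ i = i₂ then (1 : F) else ϖ) ∈ O := by
      intro i; split_ifs
      · exact O.one_mem
      · exact hϖ
    have h2 : ∀ i : ι, ϖ * (if i = i₁ ∨ i = i₂ then (1 : F) else ϖ)⁻¹ ∈ O := by
      intro i; split_ifs
      · simpa using hϖ
      · rw [mul_inv_cancel₀ h0]; exact O.one_mem
    exact ⟨parK_entry h1 h2 hk, parK_entry h1 h2 (inv_mem hk)⟩

/-- **Nestedness.** -/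
theorem conj_mem_ball {O : Subring F} {ϖ : F} (hϖ : ϖ ∈ O) {h0 : ϖ ≠ 0} {i₁ i₂ : ι}
    {k : Matrix.SpecialLinearGroup ι F} (hk : k ∈ H428.gapSet O h0 i₁ i₂) {m : ℕ}
    {x : Matrix ι ι F} (hx : x ∈ ball O ϖ m) :
    (k : Matrix ι ι F) * x * ((k⁻¹ : Matrix.SpecialLinearGroup ι F) : Matrix ι ι F) ∈
      ball O ϖ (m + 2) := by
  obtain ⟨h1, h2⟩ := gapSet_entry hϖ hk
  have := mul_mem_ball (mul_mem_ball h1 hx) h2
  rwa [show 1 + m + 1 = m + 2 by ring] at this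

end algebra

end

end Vale.Agent.P011.H565
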