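import Vale.Agent.P011.H565.MatBall

/-!
# The boxes `Ω × ϖ⁻ᵐ M_n(O)`: topology, Haar measure, the structure `Boxes`
-/

open MeasureTheory Set Filter
open scoped Pointwise ENNReal NNReal Topology

namespace Vale.Agent.P011.H565

noncomputable section

section top

variable {ι : Type*} [Fintype ι] {F : Type*} [Field F] [TopologicalSpace F]
  [IsTopologicalRing F] {O : Subring F} {ϖ : F}

omit [IsTopologicalRing F] in
theorem isOpen_ball [ContinuousMul F] (hO : IsOpen (O : Set F)) (m : ℕ) :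
    IsOpen ((ball O ϖ m : AddSubgroup (Matrix ι ι F)) : Set (Matrix ι ι F)) := by
  have h1 : ((ball O ϖ m : AddSubgroup (Matrix ι ι F)) : Set (Matrix ι ι F)) =
      ⋂ a, ⋂ b, (fun x : Matrix ι ι F => ϖ ^ m * x a b) ⁻¹' (O : Set F) := by
    ext x
    simp [mem_ball]
  rw [h1]
  refine isOpen_iInter_of_finite fun a => isOpen_iInter_of_finite fun b => hO.preimage ?_
  exact continuous_const.mul (continuous_id.matrix_elem a b)

omit [IsTopologicalRing F] [Fintype ι] in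
theorem isCompact_ball [ContinuousMul F] (hO : IsCompact (O : Set F)) (h0 : ϖ ≠ 0) (m : ℕ) :
    IsCompact ((ball O ϖ m : AddSubgroup (Matrix ι ι F)) : Set (Matrix ι ι F)) := by
  have h1 : IsCompact (Set.univ.pi fun _ : ι => Set.univ.pi fun _ : ι => (O : Set F)) :=
    isCompact_univ_pi fun _ => isCompact_univ_pi fun _ => hO
  have h2 : Continuous fun x : ι → ι → F =>
      (Matrix.of fun a b => (ϖ ^ m)⁻¹ * x a b : Matrix ι ι F) := by
    refine continuous_matrix fun a b => ?_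
    exact continuous_const.mul ((continuous_apply b).comp (continuous_apply a))
  have h3 := h1.image h2
  have h4 : ((ball O ϖ m : AddSubgroup (Matrix ι ι F)) : Set (Matrix ι ι F)) =
      (fun x : ι → ι → F => (Matrix.of fun a b => (ϖ ^ m)⁻¹ * x a b : Matrix ι ι F)) ''
        (Set.univ.pi fun _ : ι => Set.univ.pi fun _ : ι => (O : Set F)) := by
    apply Set.ext
    intro x
    simp only [SetLike.mem_coe, mem_ball, mem_image, Set.mem_pi, mem_univ, true_imp_iff]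
    constructor
    · intro h
      refine ⟨fun a b => ϖ ^ m * x a b, h, ?_⟩
      ext a b
      rw [Matrix.of_apply]
      field_simp
    · rintro ⟨y, hy, rfl⟩ a b
      rw [Matrix.of_apply]
      have : ϖ ^ m * ((ϖ ^ m)⁻¹ * y a b) = y a b := by field_simp
      rw [this]
      exact hy a b
  rw [h4]
  exact h3

theorem exists_subset_ball (hO : IsOpen (O : Set F)) (hϖ : ϖ ∈ O)
    (hfrac : ∀ x : F, ∃ n : ℕ, ϖ ^ n * x ∈ O) {K : Set (Matrix ι ι F)} (hK : IsCompact K) :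
    ∃ m, K ⊆ (ball O ϖ m : AddSubgroup (Matrix ι ι F)) := by
  obtain ⟨m, hm⟩ := hK.elim_directed_cover
    (fun m => ((ball O ϖ m : AddSubgroup (Matrix ι ι F)) : Set (Matrix ι ι F)))
    (fun m => isOpen_ball hO m) (fun x _ => by
      obtain ⟨m, hm⟩ := exists_mem_ball hϖ hfrac x
      exact mem_iUnion.2 ⟨m, hm⟩)
    (Monotone.directed_le fun m m' h => ball_mono hϖ h)
  exact ⟨m, hm⟩

omit [TopologicalSpace F] [IsTopologicalRing F] [Fintype ι] in
theorem ball_add_eq (h0 : ϖ ≠ 0) (m d : ℕ) :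
    ((ball O ϖ (m + d) : AddSubgroup (Matrix ι ι F)) : Set (Matrix ι ι F)) =
      ((Units.mk0 ϖ h0)⁻¹ ^ d : Fˣ) • ((ball O ϖ m : AddSubgroup (Matrix ι ι F)) :
        Set (Matrix ι ι F)) := by
  ext x
  rw [Set.mem_smul_set_iff_inv_smul_mem]
  simp only [SetLike.mem_coe, mem_ball, inv_pow, inv_inv]
  refine forall_congr' fun a => forall_congr' fun b => ?_
  rw [Matrix.smul_apply, Units.smul_def, Units.val_pow_eq_pow_val, Units.val_mk0, smul_eq_mul,
    pow_add, mul_assoc]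

instance locallyCompactSpace_matrix [LocallyCompactSpace F] :
    LocallyCompactSpace (Matrix ι ι F) :=
  inferInstanceAs (LocallyCompactSpace (ι → ι → F))

instance secondCountable_matrix [SecondCountableTopology F] :
    SecondCountableTopology (Matrix ι ι F) :=
  inferInstanceAs (SecondCountableTopology (ι → ι → F))

variable [LocallyCompactSpace F] [MeasurableSpace (Matrix ι ι F)]
  [BorelSpace (Matrix ι ι F)]

/-- Haar measure of the boxes: constant ratio. -/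
theorem exists_measure_ball (ν : Measure (Matrix ι ι F)) [ν.IsAddHaarMeasure] [ν.Regular]
    (O : Subring F) (h0 : ϖ ≠ 0) (d : ℕ) : ∃ A : ℝ, 0 < A ∧ ∀ m,
      ν (ball O ϖ (m + d) : AddSubgroup (Matrix ι ι F)) =
        ENNReal.ofReal A * ν (ball O ϖ m : AddSubgroup (Matrix ι ι F)) := by
  refine ⟨distribHaarChar (Matrix ι ι F) ((Units.mk0 ϖ h0)⁻¹ ^ d : Fˣ), ?_, fun m => ?_⟩
  · exact_mod_cast distribHaarChar_pos
  · rw [ball_add_eq h0, ← distribHaarChar_mul ν, ENNReal.ofReal_coe_nnreal]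

end top

section boxes

variable {H P V V' : Type*} [Group H] [TopologicalSpace H] [IsTopologicalGroup H]
  [AddCommGroup P] {Lam : AddSubgroup P} [AddCommGroup V] [TopologicalSpace V]
  [DistribMulAction H V] [ContinuousSMul H V] {i : P →+ V}
  [IsTopologicalAddGroup V] [LocallyCompactSpace V] [T2Space V]
variable [AddCommGroup V'] [TopologicalSpace V'] [IsTopologicalAddGroup V'] [MeasurableSpace V']
  [BorelSpace V'] [LocallyCompactSpace V'] [SecondCountableTopology V'] [T2Space V']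
variable {ι : Type*} [Fintype ι] [DecidableEq ι] {F : Type*} [Field F] [TopologicalSpace F]
  [IsTopologicalRing F] [LocallyCompactSpace F] [SecondCountableTopology F] [T2Space F]
  {O : Subring F} {ϖ : F}

/-- The box `Ω × ϖ⁻ᵐ M_n(O)`. -/
def box (e : V ≃ₜ+ V' × Matrix ι ι F) (O : Subring F) (ϖ : F) (Ω : Set V') (m : ℕ) : Set V :=
  e ⁻¹' (Ω ×ˢ ((ball O ϖ m : AddSubgroup (Matrix ι ι F)) : Set (Matrix ι ι F)))

/-- **The boxes `Ω × ϖ⁻⁽ᵐ⁺²ʲ⁾ M_n(O)` satisfy `Boxes`** with respect to the generating set of the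
gap theorem for `SL_n(F)`, with a constant independent of `m ≥ m₀` and of the (large) region `Ω`. -/
theorem exists_boxes_prod {Γ : Type*} [Group Γ] [DistribMulAction Γ P]
    (e : V ≃ₜ+ V' × Matrix ι ι F) (μ' : Measure V') [μ'.IsAddHaarMeasure]
    (hlat : H308.IsLat i Lam) (hinj : ∀ l ∈ Lam, i l = 0 → l = 0)
    {ιΓ : Γ →* H} (hL : ∀ (γ : Γ), ∀ ξ ∈ Lam, γ • ξ ∈ Lam)
    (hi : ∀ (γ : Γ) ξ, i (γ • ξ) = ιΓ γ • i ξ) {D : Set H}
    (hcov : ∀ h : H, ∃ γ : Γ, ιΓ γ * h ∈ D)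
    {j₀ : Matrix.SpecialLinearGroup ι F →* H}
    (hact : ∀ (g : Matrix.SpecialLinearGroup ι F) (v : V), e (j₀ g • v) =
      ((e v).1, (g : Matrix ι ι F) * (e v).2 *
        ((g⁻¹ : Matrix.SpecialLinearGroup ι F) : Matrix ι ι F)))
    (hOo : IsOpen (O : Set F)) (hOc : IsCompact (O : Set F)) (hϖ : ϖ ∈ O) (h0 : ϖ ≠ 0)
    (hfrac : ∀ x : F, ∃ n : ℕ, ϖ ^ n * x ∈ O) (i₁ i₂ : ι) {KH : Set H} (hKH : IsCompact KH)
    (hD : D ⊆ KH) (hDK : ∀ k ∈ H428.gapSet O h0 i₁ i₂, ∀ h ∈ D, h * (j₀ k)⁻¹ ∈ KH)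
    {W' : Set V'} (hW' : W' ∈ 𝓝 (0 : V')) :
    ∃ (C₀ : ℝ) (m₀ : ℕ) (K₁' : Set V'), 0 < C₀ ∧ IsCompact K₁' ∧
      ∀ (Ω Ω' Ω'' : Set V') (A : ℝ), 0 ≤ A → (∃ K', IsCompact K' ∧ Ω ⊆ K') →
        (∀ v ∈ Ω', ∀ κ ∈ K₁', v - κ ∈ Ω) → (∀ v ∈ Ω, ∀ w ∈ W', v + w ∈ Ω'') →
        μ' Ω'' ≤ ENNReal.ofReal A * μ' Ω' → ∀ m ≥ m₀,
        Boxes j₀ (H428.gapSet O h0 i₁ i₂) Lam i (fun j => box e O ϖ Ω (m + 2 * j))
          (max 1 (C₀ * A)) := by
  borelize V
  borelize (Matrix ι ι F)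
  have hec : Continuous e := e.continuous_toFun
  have hec' : Continuous e.symm := e.symm.continuous_toFun
  set ν : Measure (Matrix ι ι F) := Measure.addHaar with hν
  set μ : Measure V := (μ'.prod ν).map e.symm with hμ
  have _ : μ.Regular := Measure.Regular.map (μ := μ'.prod ν) e.symm.toHomeomorph
  have hμv : ∀ (Ω : Set V') (m : ℕ), μ (box e O ϖ Ω m) = μ' Ω *
      ν (ball O ϖ m : AddSubgroup (Matrix ι ι F)) := by
    intro Ω m
    have e1 : e.symm ⁻¹' (box e O ϖ Ω m) = Ω ×ˢ ((ball O ϖ m : AddSubgroup (Matrix ι ι F)) :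
        Set (Matrix ι ι F)) := by
      ext x
      simp [box]
    have e2 : μ (box e O ϖ Ω m) = (μ'.prod ν) (e.symm ⁻¹' (box e O ϖ Ω m)) :=
      e.symm.toHomeomorph.toMeasurableEquiv.map_apply _
    rw [e2, e1, Measure.prod_prod]
  obtain ⟨A₂, hA₂, hball⟩ := exists_measure_ball ν O h0 2
  have hWV : e ⁻¹' (W' ×ˢ ((ball O ϖ 0 : AddSubgroup (Matrix ι ι F)) : Set (Matrix ι ι F))) ∈
      𝓝 (0 : V) := by
    refine hec.continuousAt ?_
    rw [map_zero]
    exact prod_mem_nhds hW' ((isOpen_ball hOo 0).mem_nhds (AddSubgroup.zero_mem _))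
  obtain ⟨C₀, K₁, hC₀, hK₁, hbox⟩ := exists_boxes μ hlat hinj hL hi hcov (j₀ := j₀)
    (K := H428.gapSet O h0 i₁ i₂) hKH hD hDK hWV
  obtain ⟨m₀, hm₀⟩ := exists_subset_ball hOo hϖ hfrac
    (hK₁.image (continuous_snd.comp hec))
  refine ⟨C₀ * A₂, m₀, (fun v => (e v).1) '' K₁, by positivity,
    hK₁.image (continuous_fst.comp hec), ?_⟩
  intro Ω Ω' Ω'' A hA hΩK hΩ' hΩ'' hμΩ m hm
  have := hbox (fun j => box e O ϖ Ω (m + 2 * j)) (fun j => box e O ϖ Ω' (m + 2 * j))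
    (fun j => box e O ϖ Ω'' (m + 2 * j)) (A₂ * A) (by positivity) ?_ ?_ ?_ ?_ ?_ ?_
  · rwa [← mul_assoc] at this
  · intro j
    obtain ⟨K', hK', hΩK'⟩ := hΩK
    refine ⟨e ⁻¹' (K' ×ˢ ((ball O ϖ (m + 2 * j) : AddSubgroup (Matrix ι ι F)) :
      Set (Matrix ι ι F))), ?_, ?_⟩
    · have h1 := (hK'.prod (isCompact_ball (ι := ι) hOc h0 (m + 2 * j))).image hec'
      convert h1 using 1
      ext x
      constructor
      · intro hx
        exact ⟨e x, hx, by simp⟩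
      · rintro ⟨y, hy, rfl⟩
        simpa using hy
    · exact Set.preimage_mono (Set.prod_mono hΩK' subset_rfl)
  · intro j v hv
    exact ⟨hv.1, ball_mono hϖ (by omega) hv.2⟩
  · rintro j k hk _ ⟨v, hv, rfl⟩
    refine ⟨?_, ?_⟩
    · change (e (j₀ k • v)).1 ∈ Ω
      rw [hact]
      exact hv.1
    · change (e (j₀ k • v)).2 ∈ _
      rw [hact]
      exact conj_mem_ball hϖ hk hv.2
  · intro j v hv κ hκ
    refine ⟨?_, ?_⟩
    · rw [map_sub, Prod.fst_sub]
      exact hΩ' _ hv.1 _ ⟨κ, hκ, rfl⟩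
    · rw [map_sub, Prod.snd_sub]
      refine AddSubgroup.sub_mem _ hv.2 (ball_mono hϖ (by omega) (hm₀ ⟨κ, hκ, rfl⟩))
  · intro j v hv w hw
    refine ⟨?_, ?_⟩
    · rw [map_add, Prod.fst_add]
      exact hΩ'' _ hv.1 _ hw.1
    · rw [map_add, Prod.snd_add]
      exact AddSubgroup.add_mem _ hv.2 (ball_mono hϖ (by omega) hw.2)
  · intro j
    rw [hμv, hμv, show m + 2 * (j + 1) = m + 2 * j + 2 by ring, hball,
      ENNReal.ofReal_mul hA₂.le]
    calc μ' Ω'' * (ENNReal.ofReal A₂ * ν (ball O ϖ (m + 2 * j) : AddSubgroup (Matrix ι ι F)))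
        ≤ ENNReal.ofReal A * μ' Ω' *
          (ENNReal.ofReal A₂ * ν (ball O ϖ (m + 2 * j) : AddSubgroup (Matrix ι ι F))) := by
          gcongr
      _ = _ := by ring

end boxes

end

end Vale.Agent.P011.H565
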