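import Vale.Agent.P011.H565.LocalGap

/-!
# Normality of the colour sets of the boxes `Ω × ϖ⁻ᵐ M_n(O)`, `SL_n(F)` acting by conjugation
-/

open MeasureTheory Set Filter
open scoped Pointwise ENNReal NNReal Topology

namespace Vale.Agent.P011.H565

noncomputable section

universe u

section compact

variable {H : Type*} [Group H] [TopologicalSpace H] [IsTopologicalGroup H]
variable {ι : Type*} [Fintype ι] [DecidableEq ι] {F : Type*} [Field F] [TopologicalSpace F]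
  [IsTopologicalRing F] [T2Space F] {O : Subring F} {ϖ : F}

theorem exists_compact_gapSet (hOc : IsCompact (O : Set F)) (hϖ : ϖ ∈ O) (h0 : ϖ ≠ 0)
    (i₁ i₂ : ι) : ∃ K : Set (Matrix.SpecialLinearGroup ι F), IsCompact K ∧
      H428.gapSet O h0 i₁ i₂ ⊆ K :=
  ⟨_, Matrix.SpecialLinearGroup.isClosedEmbedding_val.isCompact_preimage
    (isCompact_ball hOc h0 1), fun _ hk => (gapSet_entry hϖ hk).1⟩

theorem exists_KH (hOc : IsCompact (O : Set F)) (hϖ : ϖ ∈ O) (h0 : ϖ ≠ 0) (i₁ i₂ : ι)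
    {j₀ : Matrix.SpecialLinearGroup ι F →* H} (hj : Continuous j₀) {D KD : Set H}
    (hKD : IsCompact KD) (hD : D ⊆ KD) :
    ∃ KH : Set H, IsCompact KH ∧ D ⊆ KH ∧
      ∀ k ∈ H428.gapSet O h0 i₁ i₂, ∀ h ∈ D, h * (j₀ k)⁻¹ ∈ KH := by
  obtain ⟨K, hK, hgK⟩ := exists_compact_gapSet hOc hϖ h0 i₁ i₂
  refine ⟨KD ∪ KD * (j₀ '' K)⁻¹, hKD.union (hKD.mul (hK.image hj).inv),
    hD.trans subset_union_left, fun k hk h hh => Or.inr ?_⟩
  exact Set.mul_mem_mul (hD hh) (Set.inv_mem_inv.2 ⟨k, hgK hk, rfl⟩)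

end compact

section main

variable {Γ H P : Type u} {V V' : Type*} [Group Γ] [Countable Γ] [Group H]
  [TopologicalSpace H] [IsTopologicalGroup H] [T2Space H]
  [LocallyCompactSpace H] [SecondCountableTopology H] [MeasurableSpace H] [BorelSpace H]
  {μ : Measure H} [SFinite μ] [μ.IsMulLeftInvariant] [IsFiniteMeasureOnCompacts μ]
  [μ.InnerRegularCompactLTTop]
variable {ιΓ : Γ →* H}
variable [AddCommGroup P] [Countable P] [DistribMulAction Γ P] [AddCommGroup V]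
  [TopologicalSpace V] [IsTopologicalAddGroup V] [LocallyCompactSpace V] [T2Space V]
  [DistribMulAction H V] [ContinuousSMul H V] {Lam : AddSubgroup P} {i : P →+ V}
variable [AddCommGroup V'] [TopologicalSpace V'] [IsTopologicalAddGroup V'] [MeasurableSpace V']
  [BorelSpace V'] [LocallyCompactSpace V'] [SecondCountableTopology V'] [T2Space V']
variable {ι : Type*} [Fintype ι] [DecidableEq ι] {F : Type*} [NormedField F]
  [IsUltrametricDist F] [ProperSpace F] {ϖ : F}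
variable {R : Type} [Group R] [Fintype R] [DecidableEq R] {c : Γ → R} {f : P → R}

/-- **Normality of the colour sets, concrete form.** -/
theorem normal_SL {i₁ i₂ j₁ : ι} (h12 : i₁ ≠ i₂) (hj1 : j₁ ≠ i₁) (hj2 : j₁ ≠ i₂)
    (h0 : ϖ ≠ 0) (h1 : ‖ϖ‖ < 1) {q : ℕ} (hq5 : 5 ≤ q)
    (r : Fin q → F) (hr : ∀ k, ‖r k‖ ≤ 1) (hr' : ∀ k l, k ≠ l → ‖r l - r k‖ = 1)
    (e : V ≃ₜ+ V' × Matrix ι ι F) (μ' : Measure V') [μ'.IsAddHaarMeasure]
    (hlat : H308.IsLat i Lam) (hinj : ∀ l ∈ Lam, i l = 0 → l = 0)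
    (hL : ∀ (γ : Γ), ∀ ξ ∈ Lam, γ • ξ ∈ Lam) (hi : ∀ (γ : Γ) ξ, i (γ • ξ) = ιΓ γ • i ξ)
    (hf : ∀ (γ : Γ) ξ, f (γ • ξ) = c γ * f ξ * (c γ)⁻¹)
    {j₀ : Matrix.SpecialLinearGroup ι F →* H} (hj : Continuous j₀) (hN : j₀.range.Normal)
    (hq : ∀ g, MeasurePreserving (· * j₀ g) μ μ)
    (hact : ∀ (g : Matrix.SpecialLinearGroup ι F) (v : V), e (j₀ g • v) =
      ((e v).1, (g : Matrix ι ι F) * (e v).2 *
        ((g⁻¹ : Matrix.SpecialLinearGroup ι F) : Matrix ι ι F)))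
    {D KD : Set H} (hD : MeasurableSet D) (hKD : IsCompact KD) (hDK : D ⊆ KD)
    (hcov : ∀ h : H, ∃ γ : Γ, ιΓ γ * h ∈ D)
    (hfin : ∀ h : H, {γ : Γ | ιΓ γ * h ∈ D}.Finite)
    {W' : Set V'} (hW' : W' ∈ 𝓝 (0 : V')) :
    ∃ (C₀ : ℝ) (m₀ : ℕ) (K₁' : Set V'), 0 < C₀ ∧ IsCompact K₁' ∧
      ∀ (Ω Ω' Ω'' : Set V') (A : ℝ), MeasurableSet Ω → 0 ≤ A → (∃ K', IsCompact K' ∧ Ω ⊆ K') →
        (∀ v ∈ Ω', ∀ κ ∈ K₁', v - κ ∈ Ω) → (∀ v ∈ Ω, ∀ w ∈ W', v + w ∈ Ω'') →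
        μ' Ω'' ≤ ENNReal.ofReal A * μ' Ω' → ∀ m ≥ m₀,
        Boxes j₀ (H428.gapSet (oball F) h0 i₁ i₂) Lam i
            (fun j => box e (oball F) ϖ Ω (m + 2 * j)) (max 1 (C₀ * A)) ∧
          ∀ (ε : ℝ), 0 ≤ ε → ∀ (W : P ⧸ Lam → ℝ≥0∞),
            (∀ (γ : Γ) y, W (H308.cosetAct hL γ y) = W y) → ∀ (Q : Finset R),
            (∀ y : P ⧸ Lam, W y ≠ 0 → ∀ ρ ∈ Q, ∀ U ∈ 𝓝 (1 : H), ∃ γ : Γ,
              H308.cosetAct hL γ y = y ∧ c γ = ρ ∧
              ∃ o ∈ U, ∃ g : Matrix.SpecialLinearGroup ι F, ιΓ γ = o * j₀ g) →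
            ∀ (J : ℕ), 0 < J → ∀ (A' : ℝ≥0), μ D * ∑' y, W y ≤ A' →
            ∃ j < J, ∑' y, W y * ∫⁻ h in {h | ∃ ρ ∈ Q, H219.conjF ρ
                (scaleSet Lam i f (fun j => box e (oball F) ϖ Ω (m + 2 * j)) (max 1 (C₀ * A))
                  ε j h y) ≠
                scaleSet Lam i f (fun j => box e (oball F) ϖ Ω (m + 2 * j)) (max 1 (C₀ * A))
                  ε j h y}, H219.fundWeight ιΓ D h ∂μ ≤
              Q.card * (6 * (2 * (H428.gapC q) ^ 2 + 1) * (Fintype.card R * A' / J : ℝ≥0)) := by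
  borelize V
  borelize (Matrix.SpecialLinearGroup ι F)
  have hOc : IsCompact (oball F : Set F) := isCompact_oball
  have hOo : IsOpen (oball F : Set F) := isOpen_oball
  have hϖ : ϖ ∈ oball F := h1.le
  have _ : SecondCountableTopology F := inferInstance
  have _ : SecondCountableTopology (Matrix.SpecialLinearGroup ι F) :=
    Matrix.SpecialLinearGroup.isClosedEmbedding_val.isEmbedding.secondCountableTopology
  have _ : LocallyCompactSpace (Matrix.SpecialLinearGroup ι F) :=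
    Matrix.SpecialLinearGroup.isClosedEmbedding_val.locallyCompactSpace
  obtain ⟨KH, hKH, hDKH, hDK'⟩ := exists_KH hOc hϖ h0 i₁ i₂ hj hKD hDK
  obtain ⟨C₀, m₀, K₁', hC₀, hK₁', hbox⟩ := exists_boxes_prod e μ' hlat hinj hL hi hcov hact hOo
    hOc hϖ h0 (exists_pow_mul_mem h1) i₁ i₂ hKH hDKH hDK' hW'
  refine ⟨C₀, m₀, K₁', hC₀, hK₁', fun Ω Ω' Ω'' A hΩm hA hΩK hΩ' hΩ'' hμ m hm => ?_⟩
  have hB := hbox Ω Ω' Ω'' A hA hΩK hΩ' hΩ'' hμ m hm
  refine ⟨hB, fun ε hε W hW Q happ J hJ A' hA' => ?_⟩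
  refine exists_scale_normal (μ₀ := (Measure.haar : Measure (Matrix.SpecialLinearGroup ι F)))
    (hasGap_norm h12 hj1 hj2 h0 h1 hq5 r hr hr') (NeZero.ne _) hj.measurable hN hq hD hcov hfin
    hL hi hf hW Q happ hB (fun j => ?_) hε hJ hA'
  borelize (Matrix ι ι F)
  have h2 : MeasurableSet (Ω ×ˢ ((ball (oball F) ϖ (m + 2 * j) : AddSubgroup (Matrix ι ι F)) :
      Set (Matrix ι ι F))) := hΩm.prod (isOpen_ball hOo _).measurableSet
  have hec : Continuous e := e.continuous_toFun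
  exact hec.measurable h2

end main

end

end Vale.Agent.P011.H565
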