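import Vale.Agent.P011.H565.Dense
import Vale.Agent.P011.H976.NFLev
import Vale.Agent.P011.One.TwoModel

/-!
# Generation of the unitary group over a number field
-/

open Matrix Filter NumberField IsDedekindDomain Module
open scoped Topology

set_option linter.unusedSectionVars false

namespace Vale.Agent.P011.H565

open Vale.Agent.P011.Arith Vale.Agent.P011.Even Vale.Agent.P011.Two Vale.Agent.P011.One
  Vale.Agent.P011.H976

section comp

variable {k : Type} [Field k] [NumberField k] (v : HeightOneSpectrum (𝓞 k))

/-- The completion as a nontrivially normed field. -/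
@[reducible] noncomputable def nnf : NontriviallyNormedField (v.adicCompletion k) :=
  Valued.toNontriviallyNormedField (L := v.adicCompletion k) (Γ₀ := WithZero (Multiplicative ℤ))

theorem nebot_adic : (𝓝[≠] (1 : v.adicCompletion k)).NeBot := by
  let _ := nnf v
  exact NormedField.nhdsNE_neBot (α := v.adicCompletion k) 1

theorem isOpen_splitReg_adic {ι : Type*} [Fintype ι] [DecidableEq ι] :
    IsOpen {s : Matrix ι ι (v.adicCompletion k) | SplitReg s} :=
  @isOpen_splitReg ι (v.adicCompletion k) _ _ (nnf v)
    (inferInstanceAs (CompleteSpace (v.adicCompletion k)))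

end comp

section main

variable {k K D : Type} [Field k] [NumberField k] [Field K] [StarRing K]
  [DivisionRing D] [StarRing D] [Algebra k K] [Algebra k D] [Algebra K D] [IsScalarTower k K D]
  {d : kˣ} {s : K} {v : HeightOneSpectrum (𝓞 k)} {n : ℕ}

theorem algS_comm (x : D) : algebraMap K D s * x = x * algebraMap K D s :=
  Algebra.commutes s x

theorem star_algS (hS : Setting k K D d s) :
    star (algebraMap K D s) = -algebraMap K D s := by
  rw [star_algK hS, hS.star_s, map_neg]

theorem star_algS_ne (hS : Setting k K D d s) :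
    star (algebraMap K D s) ≠ algebraMap K D s := by
  rw [star_algK hS]
  intro h
  obtain ⟨a, ha⟩ := (hS.fix s).1 ((algebraMap K D).injective h)
  refine hS.ns ⟨a, ?_⟩
  have h1 := hS.sq
  rw [← ha, ← map_pow] at h1
  rw [← (algebraMap k K).injective h1, sq]

theorem span_range_SplAt (hS : Setting k K D d s) (hn : 0 < n) (hdeg : finrank K D = n ^ 2)
    {φ : K →+* v.adicCompletion k} {f : D →+* Matrix (Fin n) (Fin n) (v.adicCompletion k)}
    (h : SplAt K D n v φ f) : Submodule.span (v.adicCompletion k) (Set.range f) = ⊤ := by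
  have := hS.fin
  have := hS.cen
  rw [eq_top_iff]
  rintro y -
  obtain ⟨x, rfl⟩ := h.pr_surj hn hdeg y
  induction x using TensorProduct.induction_on with
  | zero => rw [map_zero]; exact zero_mem _
  | tmul c x =>
    rw [h.pr_tmul]
    exact Submodule.smul_mem _ _ (Submodule.subset_span ⟨x, rfl⟩)
  | add x y hx hy => rw [map_add]; exact add_mem hx hy

/-- **Density of the symmetric elements** at a split place. -/
theorem dense_sym_NF (hS : Setting k K D d s) (hn : 0 < n) (hdeg : finrank K D = n ^ 2)
    {φ : K →+* v.adicCompletion k} {f : D →+* Matrix (Fin n) (Fin n) (v.adicCompletion k)}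
    (h : SplAt K D n v φ f) (X : Matrix (Fin n) (Fin n) (v.adicCompletion k))
    {O : Set (Matrix (Fin n) (Fin n) (v.adicCompletion k))} (hO : O ∈ 𝓝 X) :
    ∃ σ : D, star σ = σ ∧ f σ ∈ O := by
  refine dense_sym_of_span (w := algebraMap K D s) (ω := φ s)
    (algebraMap k (v.adicCompletion k)) (HeightOneSpectrum.denseRange_algebraMap k v)
    (algebraMap k D) (fun c => ?_) (fun c x => Algebra.commutes c x) f (fun c => ?_)
    (algS_comm) (star_algS_ne hS) ?_ (span_range_SplAt hS hn hdeg h) X hO
  · rw [IsScalarTower.algebraMap_apply k K D, star_algK hS, (hS.fix _).2 ⟨c, rfl⟩]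
  · rw [IsScalarTower.algebraMap_apply k K D, h.map, h.base]
    rw [Matrix.scalar_apply, smul_one_eq_diagonal]
  · rw [h.map, Matrix.scalar_apply, smul_one_eq_diagonal]

/-- The unitary group is dense in `GL_n` at a split place. -/
theorem denseRange_UD (hS : Setting k K D d s) (hn : 0 < n) (hdeg : finrank K D = n ^ 2)
    {φ : K →+* v.adicCompletion k} {f : D →+* Matrix (Fin n) (Fin n) (v.adicCompletion k)}
    (h : SplAt K D n v φ f) : DenseRange (rho f (UD D)) := by
  have : Nonempty (Fin n) := ⟨⟨0, hn⟩⟩
  have := nebot_adic v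
  refine denseRange_rho (w := algebraMap K D s) (ω := φ s) (ω' := φ (star s)) algS_comm
    (fun g => mem_UD) f ?_ ?_ ?_ fun X O hO => dense_sym_NF hS hn hdeg h X hO
  · rw [h.map, Matrix.scalar_apply, smul_one_eq_diagonal]
  · rw [star_algK hS, h.map, Matrix.scalar_apply, smul_one_eq_diagonal]
  · intro h1
    refine star_algS_ne hS ?_
    rw [star_algK hS, φ.injective h1.symm]

/-- **CORE-P11 over number fields.**  A homomorphism from the unitary group which is trivial on the
Cayley transforms `(σ + s) (σ - s)⁻¹` of the symmetric elements `σ` which are split regular at the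
split place `v` is trivial. -/
theorem hom_eq_one_NF (hS : Setting k K D d s) (hn : 0 < n) (hdeg : finrank K D = n ^ 2)
    {φ : K →+* v.adicCompletion k} {f : D →+* Matrix (Fin n) (Fin n) (v.adicCompletion k)}
    (h : SplAt K D n v φ f) {Q : Type*} [Group Q] (c : UD D →* Q)
    (hc : ∀ σ : D, star σ = σ → f σ ∈ H210.SR (Fin n) (v.adicCompletion k) → ∀ u : UD D,
      ((u : Dˣ) : D) * (σ - algebraMap K D s) = σ + algebraMap K D s → c u = 1) (u : UD D) :
    c u = 1 := by
  have : Nonempty (Fin n) := ⟨⟨0, hn⟩⟩
  have := nebot_adic v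
  refine hom_eq_one (w := algebraMap K D s) (ω := φ s) (ω' := φ (star s)) algS_comm
    (fun g => mem_UD) f ?_ ?_ ?_ (fun X O hO => dense_sym_NF hS hn hdeg h X hO)
    (isOpen_splitReg_adic v) c (fun σ h1 h2 u h3 => hc σ h1 h2 u ?_) u
  · rw [h.map, Matrix.scalar_apply, smul_one_eq_diagonal]
  · rw [star_algK hS, h.map, Matrix.scalar_apply, smul_one_eq_diagonal]
  · intro h1
    refine star_algS_ne hS ?_
    rw [star_algK hS, φ.injective h1.symm]
  · rwa [star_algS hS, ← sub_eq_add_neg] at h3

end main

end Vale.Agent.P011.H565
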