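import Vale.Agent.P011.H565.LocalGap
import Vale.Agent.P011.H565.PlaceNorm

/-!
# The gap of `SL_n` over the completion of a function field at a place
-/

open MeasureTheory Set Filter
open scoped Pointwise ENNReal NNReal Topology

namespace Vale.Agent.P011.H565

open Vale.Agent.P011.H738 Vale.Agent.P011.H271

noncomputable section

universe u

variable {k : Type} [Field k]

/-- Representatives of residue classes. -/
theorem exists_reps (v : Place k) {q : ℕ} (hq : q ≤ qq v) :
    ∃ r : Fin q → k, (∀ a, v.abv (r a) ≤ 1) ∧ ∀ a b, a ≠ b → v.abv (r b - r a) = 1 := by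
  have _ := v.normalized.1
  have _ := Fintype.ofFinite (integers v.abv v.nonarch ⧸ maxIdeal v.abv v.nonarch)
  have h1 : Fintype.card (Fin q) ≤
      Fintype.card (integers v.abv v.nonarch ⧸ maxIdeal v.abv v.nonarch) := by
    rw [Fintype.card_fin, ← Nat.card_eq_fintype_card]
    exact hq
  obtain ⟨f⟩ := Function.Embedding.nonempty_of_card_le h1
  choose s hs using fun a => Ideal.Quotient.mk_surjective (f a)
  refine ⟨fun a => (s a : k), fun a => (s a).2, fun a b hab => ?_⟩
  have h2 : s b - s a ∉ maxIdeal v.abv v.nonarch := by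
    intro h
    rw [← Ideal.Quotient.eq, hs, hs] at h
    exact hab (f.injective h).symm
  have h3 : v.abv ((s b - s a : integers v.abv v.nonarch) : k) ≤ 1 := (s b - s a).2
  rw [AddSubgroupClass.coe_sub] at h3
  refine le_antisymm h3 (not_lt.1 fun h4 => h2 ?_)
  change v.abv ((s b - s a : integers v.abv v.nonarch) : k) < 1
  rw [AddSubgroupClass.coe_sub]
  exact h4

theorem hasGap_place (v : Place k) (hv : 5 ≤ qq v) {ι : Type*} [Fintype ι] [DecidableEq ι]
    {i₁ i₂ : ι} (h12 : i₁ ≠ i₂) {j₀ : ι} (hj1 : j₀ ≠ i₁) (hj2 : j₀ ≠ i₂) {ϖ : v.comp}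
    (h0 : ϖ ≠ 0) (h1 : ‖ϖ‖ < 1) :
    H219.HasGap.{u} (Matrix.SpecialLinearGroup ι v.comp)
      (H428.gapSet (oball v.comp) h0 i₁ i₂) (H428.gapC 5) := by
  obtain ⟨r, hr, hr'⟩ := exists_reps v hv
  refine hasGap_norm h12 hj1 hj2 h0 h1 le_rfl (fun a => algebraMap k v.comp (r a))
    (fun a => ?_) fun a b hab => ?_
  · rw [norm_alg]; exact hr a
  · rw [← map_sub, norm_alg]; exact hr' a b hab

end

end Vale.Agent.P011.H565
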